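import Mathlib

/-!
Counting on Boolean cubes: conditioning, the Erdos-Littlewood-Offord bound.
-/

namespace Vale.Agent.P160

open Finset

noncomputable section

/-- The proportion of points of a cube satisfying a property. -/
def freq {ι : Type*} (p : (ι → Bool) → Prop) : ℝ :=
  (Nat.card {x : ι → Bool // p x} : ℝ) / (Nat.card (ι → Bool) : ℝ)

/-- A function of the cube does not depend on the coordinates in `F`. -/
def Indep {ι α : Type*} (F : Finset ι) (f : (ι → Bool) → α) : Prop :=
  ∀ x y : ι → Bool, (∀ i ∉ F, x i = y i) → f x = f y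

/-- `1` for true and `-1` for false. -/
def sgn (b : Bool) : ℝ := if b then 1 else -1

theorem sgn_ne_zero (b : Bool) : sgn b ≠ 0 := by cases b <;> simp [sgn]

theorem abs_sgn (b : Bool) : |sgn b| = 1 := by cases b <;> simp [sgn]

theorem sgn_inj {a b : Bool} (h : sgn a = sgn b) : a = b := by
  cases a <;> cases b <;> simp_all [sgn] <;> linarith

set_option linter.unusedSectionVars false

variable {ι : Type*} [Fintype ι] [DecidableEq ι]

/-- Glue values on `F` and values outside `F`. -/
def glue (F : Finset ι) (y : F → Bool) (z : {i // i ∉ F} → Bool) : ι → Bool :=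
  fun i => if h : i ∈ F then y ⟨i, h⟩ else z ⟨i, h⟩

theorem card_split (F : Finset ι) (p : (ι → Bool) → Prop) :
    Nat.card {x // p x} = ∑ z : {i // i ∉ F} → Bool, Nat.card {y // p (glue F y z)} := by
  rw [← Nat.card_sigma]
  refine Nat.card_congr
    { toFun := fun x => ⟨fun i => x.1 i, ⟨fun i => x.1 i, ?_⟩⟩
      invFun := fun a => ⟨glue F a.2.1 a.1, a.2.2⟩
      left_inv := ?_
      right_inv := ?_ }
  · have : glue F (fun i => x.1 i) (fun i => x.1 i) = x.1 := by
      funext i; unfold glue; split <;> rfl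
    rw [this]; exact x.2
  · rintro ⟨x, hx⟩
    apply Subtype.ext
    funext i; simp only [glue]; split <;> rfl
  · rintro ⟨z, ⟨y, hy⟩⟩
    have h1 : (fun i : {i // i ∉ F} => glue F y z i) = z := by
      funext i; simp [glue, i.2]
    have h2 : (fun i : F => glue F y z i) = y := by
      funext i; simp [glue, i.2]
    refine Sigma.subtype_ext ?_ ?_
    · exact h1
    · exact h2

theorem indep_glue {α : Type*} {F : Finset ι} {f : (ι → Bool) → α} (h : Indep F f)
    (y y' : F → Bool) (z : {i // i ∉ F} → Bool) : f (glue F y z) = f (glue F y' z) :=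
  h _ _ fun i hi => by simp [glue, hi]

theorem card_cube : (Nat.card (ι → Bool) : ℝ) = (2 : ℝ) ^ Fintype.card ι := by
  simp [Nat.card_eq_fintype_card]

theorem freq_nonneg (p : (ι → Bool) → Prop) : 0 ≤ freq p := by
  unfold freq; positivity

theorem freq_mono {p q : (ι → Bool) → Prop} (h : ∀ x, p x → q x) : freq p ≤ freq q := by
  unfold freq
  gcongr
  exact Nat.card_le_card_of_injective (Subtype.map id h)
    (Subtype.map_injective h Function.injective_id)

theorem freq_le_one (p : (ι → Bool) → Prop) : freq p ≤ 1 := by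
  unfold freq
  rw [div_le_one (by exact_mod_cast Nat.card_pos)]
  exact_mod_cast Nat.card_le_card_of_injective _ Subtype.val_injective

theorem freq_union {κ : Type*} (s : Finset κ) (p : κ → (ι → Bool) → Prop) :
    freq (fun x => ∃ k ∈ s, p k x) ≤ ∑ k ∈ s, freq (p k) := by
  classical
  unfold freq
  rw [← sum_div]
  gcongr
  simp only [Nat.card_eq_fintype_card, Fintype.card_subtype, ← Nat.cast_sum]
  gcongr
  refine le_trans (card_le_card ?_) card_biUnion_le
  intro x hx
  simpa using hx

theorem freq_or (p q : (ι → Bool) → Prop) : freq (fun x => p x ∨ q x) ≤ freq p + freq q := by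
  classical
  unfold freq
  rw [← add_div]
  gcongr
  simp only [Nat.card_eq_fintype_card, Fintype.card_subtype, ← Nat.cast_add]
  gcongr
  rw [filter_or]
  exact card_union_le _ _

/-- Conditioning on the coordinates outside `F`. -/
theorem freq_and_le {F : Finset ι} {p q : (ι → Bool) → Prop} (hp : Indep F p) {b : ℝ}
    (hb : 0 ≤ b)
    (hq : ∀ z, (∀ y, p (glue F y z)) →
      (Nat.card {y : F → Bool // q (glue F y z)} : ℝ) ≤ b * 2 ^ F.card) :
    freq (fun x => p x ∧ q x) ≤ b * freq p := by
  classical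
  unfold freq
  rw [card_split F, card_split F, ← mul_div_assoc, Nat.cast_sum, Nat.cast_sum, mul_sum]
  gcongr with z
  by_cases h : ∀ y, p (glue F y z)
  · have e : Nat.card {y : F → Bool // p (glue F y z)} = 2 ^ F.card := by
      rw [Nat.card_congr (Equiv.subtypeUnivEquiv h)]
      simp [Nat.card_eq_fintype_card]
    rw [e, Nat.card_congr (Equiv.subtypeEquivRight (fun y => and_iff_right (h y)))]
    push_cast
    exact hq z h
  · have h' : ∀ y, ¬ p (glue F y z) := fun y hy =>
      h fun y' => (indep_glue hp y y' z) ▸ hy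
    have : IsEmpty {y : F → Bool // p (glue F y z) ∧ q (glue F y z)} :=
      ⟨fun y => h' _ y.2.1⟩
    simp
    positivity

theorem freq_le_of_fibre {F : Finset ι} {q : (ι → Bool) → Prop} {b : ℝ} (hb : 0 ≤ b)
    (hq : ∀ z, (Nat.card {y : F → Bool // q (glue F y z)} : ℝ) ≤ b * 2 ^ F.card) :
    freq q ≤ b := by
  calc freq q ≤ freq (fun x => True ∧ q x) := freq_mono fun x hx => ⟨trivial, hx⟩
    _ ≤ b * freq (fun _ : ι → Bool => True) :=
        freq_and_le (F := F) (fun _ _ _ => rfl) hb fun z _ => hq z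
    _ ≤ b * 1 := mul_le_mul_of_nonneg_left (freq_le_one _) hb
    _ = b := mul_one b

/-- The coordinates in `F` are forced by the other ones. -/
theorem freq_forced {F : Finset ι} (g : ι → (ι → Bool) → Bool) (hg : ∀ i ∈ F, Indep F (g i)) :
    freq (fun x => ∀ i ∈ F, x i = g i x) = 1 / 2 ^ F.card := by
  classical
  unfold freq
  rw [card_split F]
  have h1 : ∀ z : {i // i ∉ F} → Bool,
      Nat.card {y : F → Bool // ∀ i ∈ F, glue F y z i = g i (glue F y z)} = 1 := by
    intro z
    set y0 : F → Bool := fun i => g i (glue F (fun _ => true) z)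
    rw [Nat.card_eq_one_iff_unique]
    refine ⟨⟨?_⟩, ⟨⟨y0, fun i hi => ?_⟩⟩⟩
    · rintro ⟨y, hy⟩ ⟨y', hy'⟩
      apply Subtype.ext
      funext ⟨i, hi⟩
      have a := hy i hi
      have b := hy' i hi
      rw [indep_glue (hg i hi) y y' z] at a
      simp only [glue, dif_pos hi] at a b
      exact a.trans b.symm
    · rw [indep_glue (hg i hi) y0 (fun _ => true) z]
      simp [glue, hi, y0]
  simp only [h1, card_cube, sum_const, card_univ, smul_eq_mul, mul_one]
  have e : Fintype.card ι = F.card + Fintype.card {i // i ∉ F} := by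
    rw [Fintype.card_subtype_compl, Fintype.card_coe]
    have := F.card_le_univ
    omega
  rw [e, pow_add, Fintype.card_fun, Fintype.card_bool]
  push_cast
  rw [← div_div, one_div, div_eq_mul_inv ((2:ℝ) ^ _)]
  field_simp

/-- The Erdos-Littlewood-Offord bound. -/
theorem signSum_card_le {κ : Type*} [Fintype κ] (a : κ → ℝ) (ha : ∀ k, a k ≠ 0) (c : ℝ) :
    Nat.card {y : κ → Bool // ∑ k, sgn (y k) * a k = c} ≤
      (Fintype.card κ).choose (Fintype.card κ / 2) := by
  classical
  set S : (κ → Bool) → Finset κ := fun y => univ.filter fun k => y k = decide (0 < a k)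
  have hS : Function.Injective S := by
    intro y y' h
    funext k
    have := congrArg (fun s => k ∈ s) h
    simp [S] at this
    cases hy : y k <;> cases hy' : y' k <;> cases hd : decide (0 < a k) <;>
      simp_all
  have hval : ∀ y, ∑ k, sgn (y k) * a k
      = 2 * ∑ k ∈ S y, |a k| - ∑ k, |a k| := by
    intro y
    rw [mul_sum, sum_filter, ← sum_sub_distrib]
    refine sum_congr rfl fun k _ => ?_
    rcases lt_or_gt_of_ne (ha k) with h | h
    · have : ¬ 0 < a k := not_lt.2 h.le
      cases y k <;> simp [sgn, this, abs_of_neg h] <;> ring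
    · cases y k <;> simp [sgn, h, abs_of_pos h] <;> ring
  set 𝒜 := (univ.filter fun y : κ → Bool => ∑ k, sgn (y k) * a k = c).image S
  have hanti : IsAntichain (· ⊆ ·) (𝒜 : Set (Finset κ)) := by
    intro s hs t ht hne hsub
    obtain ⟨y, hy, rfl⟩ := Finset.mem_image.1 hs
    obtain ⟨y', hy', rfl⟩ := Finset.mem_image.1 ht
    simp only [Finset.mem_filter, Finset.mem_univ, true_and, hval] at hy hy'
    obtain ⟨k, hk, hk'⟩ := exists_of_ssubset (hsub.ssubset_of_ne hne)
    have : ∑ k ∈ S y, |a k| < ∑ k ∈ S y', |a k| :=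
      sum_lt_sum_of_subset hsub hk hk' (abs_pos.2 (ha k)) (fun _ _ _ => abs_nonneg _)
    linarith
  calc Nat.card {y : κ → Bool // ∑ k, sgn (y k) * a k = c}
      = #𝒜 := by
        rw [card_image_of_injective _ hS, Nat.card_eq_fintype_card, Fintype.card_subtype]
    _ ≤ _ := hanti.sperner

theorem centralBinom_sq (k : ℕ) : k.centralBinom ^ 2 * (2 * k + 1) ≤ 16 ^ k := by
  induction k with
  | zero => simp
  | succ k ih =>
    have h := Nat.succ_mul_centralBinom_succ k
    have key : (k + 1) ^ 2 * ((k + 1).centralBinom ^ 2 * (2 * (k + 1) + 1)) ≤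
        (k + 1) ^ 2 * 16 ^ (k + 1) := by
      calc (k + 1) ^ 2 * ((k + 1).centralBinom ^ 2 * (2 * (k + 1) + 1))
          = ((k + 1) * (k + 1).centralBinom) ^ 2 * (2 * k + 3) := by ring
        _ = (k.centralBinom ^ 2 * (2 * k + 1)) * (4 * ((2 * k + 1) * (2 * k + 3))) := by
            rw [h]; ring
        _ ≤ 16 ^ k * (4 * (4 * (k + 1) ^ 2)) := by
            refine Nat.mul_le_mul ih (Nat.mul_le_mul_left 4 ?_)
            ring_nf; omega
        _ = _ := by ring
    exact Nat.le_of_mul_le_mul_left key (by positivity)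

/-- The maximal atom of a sum of `m` signed nonzero reals. -/
def atom (m : ℕ) : ℝ := (m.choose (m / 2) : ℝ) / 2 ^ m

theorem atom_nonneg (m : ℕ) : 0 ≤ atom m := by unfold atom; positivity

theorem atom_sq (m : ℕ) : atom m ^ 2 * (m + 1) ≤ 1 := by
  obtain ⟨k, rfl | rfl⟩ := Nat.even_or_odd' m
  · have h : ((k.centralBinom : ℝ)) ^ 2 * (2 * k + 1) ≤ 16 ^ k := by
      exact_mod_cast centralBinom_sq k
    have h4 : ((2 : ℝ) ^ (2 * k)) ^ 2 = 16 ^ k := by
      rw [← pow_mul, show 2 * k * 2 = 4 * k by ring, pow_mul]; norm_num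
    unfold atom
    rw [Nat.mul_div_cancel_left k two_pos, ← Nat.centralBinom_eq_two_mul_choose, div_pow,
      h4, div_mul_eq_mul_div, div_le_one (by positivity)]
    push_cast
    linarith
  · have h : (((k + 1).centralBinom : ℝ)) ^ 2 * (2 * (k + 1) + 1) ≤ 16 ^ (k + 1) := by
      exact_mod_cast centralBinom_sq (k + 1)
    have e : (k + 1).centralBinom = 2 * (2 * k + 1).choose k := by
      rw [Nat.centralBinom_eq_two_mul_choose, show 2 * (k + 1) = 2 * k + 1 + 1 by ring,
        Nat.choose_succ_succ, Nat.choose_symm_half]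
      ring
    have h4 : ((2 : ℝ) ^ (2 * k + 1)) ^ 2 = 4 * 16 ^ k := by
      rw [← pow_mul, show (2 * k + 1) * 2 = 2 + 4 * k by ring, pow_add, pow_mul]; norm_num
    unfold atom
    rw [show (2 * k + 1) / 2 = k by omega, div_pow, h4, div_mul_eq_mul_div,
      div_le_one (by positivity)]
    rw [e] at h
    push_cast at h ⊢
    rw [pow_succ (16 : ℝ) k] at h
    nlinarith [sq_nonneg ((((2 * k + 1).choose k) : ℝ))]

theorem atom_le_sqrt (m : ℕ) : atom m ≤ 1 / Real.sqrt (m + 1) := by
  rw [le_div_iff₀ (by positivity)]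
  have h := atom_sq m
  have h2 : (atom m * Real.sqrt (m + 1)) ^ 2 ≤ 1 ^ 2 := by
    rw [mul_pow, Real.sq_sqrt (by positivity)]; simpa using h
  exact (pow_le_pow_iff_left₀ (by have := atom_nonneg m; positivity) zero_le_one two_ne_zero).1 h2

theorem atom_le_one (m : ℕ) : atom m ≤ 1 :=
  (atom_le_sqrt m).trans <| by
    rw [div_le_one (by positivity)]
    exact Real.one_le_sqrt.2 (by simp)

theorem atom_le_of_three_le {m : ℕ} (hm : 3 ≤ m) : atom m ≤ 9 / 20 := by
  rcases hm.eq_or_lt with rfl | h
  · norm_num [atom]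
  · have : (5 : ℝ) ≤ m + 1 := by
      have : (4 : ℝ) ≤ m := by exact_mod_cast h
      linarith
    nlinarith [atom_sq m, atom_nonneg m, sq_nonneg (atom m)]

/-- Probability that a signed sum with free signs `e k` hits a prescribed value. -/
theorem fibre_signSum {κ : Type*} [DecidableEq κ] {F : Finset ι} (U : Finset κ) (e : κ → ι)
    (he : Set.InjOn e U) (hF : U.image e = F) (a : κ → ℝ) (ha : ∀ k ∈ U, a k ≠ 0) (c : ℝ) :
    (Nat.card {y : F → Bool //
      ∑ k : U, sgn (y ⟨e k, hF ▸ mem_image_of_mem e k.2⟩) * a k = c} : ℝ)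
      ≤ atom U.card * 2 ^ F.card := by
  classical
  set φ : U → F := fun k => ⟨e k, hF ▸ mem_image_of_mem e k.2⟩ with hφ
  have hφb : Function.Bijective φ := by
    constructor
    · intro k k' h
      exact Subtype.ext (he k.2 k'.2 (congrArg Subtype.val h))
    · rintro ⟨i, hi⟩
      rw [← hF, mem_image] at hi
      obtain ⟨k, hk, rfl⟩ := hi
      exact ⟨⟨k, hk⟩, rfl⟩
  set Φ := Equiv.arrowCongr (Equiv.ofBijective φ hφb) (Equiv.refl Bool)
  have hc : F.card = U.card := by rw [← hF, card_image_of_injOn he]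
  have hbound := signSum_card_le (fun k : U => a k) (fun k => ha k k.2) c
  rw [Fintype.card_coe] at hbound
  have hcard : Nat.card {y : F → Bool // ∑ k : U, sgn (y (φ k)) * a k = c} =
      Nat.card {y : U → Bool // ∑ k : U, sgn (y k) * a k = c} := by
    refine Nat.card_congr (Φ.symm.subtypeEquiv fun y => ?_)
    simp [Φ, Equiv.arrowCongr]
  rw [hcard, hc, atom, div_mul_cancel₀ _ (by positivity)]
  exact_mod_cast hbound

end

end Vale.Agent.P160
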