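import Mathlib

/-!
Definitions for symmetric random sign matrices.
-/

namespace Vale.Agent.P160

noncomputable section

/-- The symmetric sign matrix given by one Boolean for each unordered pair of indices,
the pairs with two equal indices being the diagonal. -/
def symSign {n : ℕ} (x : Sym2 (Fin n) → Bool) : Matrix (Fin n) (Fin n) ℝ :=
  fun i j => if x s(i, j) then 1 else -1

/-- The probability of an event for the uniformly random symmetric sign matrix. -/
def prob (n : ℕ) (E : Matrix (Fin n) (Fin n) ℝ → Prop) : ℝ :=
  (Nat.card {x : Sym2 (Fin n) → Bool // E (symSign x)} : ℝ) /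
    (Nat.card (Sym2 (Fin n) → Bool) : ℝ)

/-- `M` has a nonzero null vector with at least `16 n / log n` zero coordinates. -/
def HasNondenseNull {n : ℕ} (M : Matrix (Fin n) (Fin n) ℝ) : Prop :=
  ∃ v : Fin n → ℝ, v ≠ 0 ∧ M.mulVec v = 0 ∧
    (Nat.card {i // v i ≠ 0} : ℝ) + 16 * n / Real.log n ≤ n

end

end Vale.Agent.P160
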