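import Mathlib
import Vale.Agent.P160.Defs
import Vale.Agent.P160.Cube

/-!
Exposure bounds for null vectors of symmetric sign matrices lying in a given subspace.
-/

namespace Vale.Agent.P160

open Finset

noncomputable section

variable {n : ℕ}

/-- The product of the first `m` atom bounds. -/
def Phi (m : ℕ) : ℝ := ∏ k ∈ range m, atom (k + 1)

theorem Phi_nonneg (m : ℕ) : 0 ≤ Phi m := prod_nonneg fun _ _ => atom_nonneg _

/-- The dot product of row `i` with `v`. -/
def row (x : Sym2 (Fin n) → Bool) (i : Fin n) (v : Fin n → ℝ) : ℝ :=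
  ∑ j, sgn (x s(i, j)) * v j

theorem mulVec_eq_row (x : Sym2 (Fin n) → Bool) (v : Fin n → ℝ) (i : Fin n) :
    (symSign x).mulVec v i = row x i v := rfl

theorem prob_eq_freq (E : Matrix (Fin n) (Fin n) ℝ → Prop) :
    prob n E = freq (fun x : Sym2 (Fin n) → Bool => E (symSign x)) := rfl

theorem Indep.mono {ι α : Type*} {F G : Finset ι} {f : (ι → Bool) → α} (h : Indep G f)
    (hFG : F ⊆ G) : Indep F f :=
  fun x y hxy => h x y fun i hi => hxy i fun hiF => hi (hFG hiF)

theorem row_congr {x y : Sym2 (Fin n) → Bool} {i : Fin n} (v : Fin n → ℝ)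
    (h : ∀ j, x s(i, j) = y s(i, j)) : row x i v = row y i v :=
  Finset.sum_congr rfl fun j _ => by rw [h j]

theorem fibre_row (a : Fin n) (U : Finset (Fin n)) (F : Finset (Sym2 (Fin n)))
    (hF : U.image (fun j => s(a, j)) = F) (v : Fin n → ℝ) (hv : ∀ j ∈ U, v j ≠ 0)
    (z : {i // i ∉ F} → Bool) :
    (Nat.card {y : F → Bool // row (glue F y z) a v = 0} : ℝ) ≤ atom U.card * 2 ^ F.card := by
  have he : Set.InjOn (fun j : Fin n => s(a, j)) U := fun j _ k _ h => Sym2.congr_right.1 h
  set c : ℝ := ∑ j ∈ Uᶜ, sgn (glue F (fun _ => true) z s(a, j)) * v j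
  refine le_trans (le_of_eq ?_) (fibre_signSum U (fun j => s(a, j)) he hF v hv (-c))
  norm_cast
  refine Nat.card_congr (Equiv.subtypeEquivRight fun y => ?_)
  have key : row (glue F y z) a v = (∑ k : U,
      sgn (y ⟨s(a, (k : Fin n)), hF ▸ mem_image_of_mem _ k.2⟩) * v k) + c := by
    unfold row
    rw [← sum_add_sum_compl U, ← sum_coe_sort U]
    congr 1
    · refine sum_congr rfl fun k _ => ?_
      have hm : s(a, (k : Fin n)) ∈ F := hF ▸ mem_image_of_mem _ k.2
      simp [glue, hm]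
    · refine sum_congr rfl fun j hj => ?_
      have : s(a, j) ∉ F := by
        rw [← hF, mem_image]
        rintro ⟨k, hk, hk'⟩
        exact (mem_compl.1 hj) ((Sym2.congr_right.1 hk') ▸ hk)
      simp [glue, this]
  rw [key]
  constructor <;> intro h <;> linarith

theorem chain_block (U : Finset (Fin n)) :
    ∀ (E : (Sym2 (Fin n) → Bool) → Prop) (v : (Sym2 (Fin n) → Bool) → Fin n → ℝ),
      Indep U.sym2 E → Indep U.sym2 v → (∀ x, E x → ∀ u ∈ U, v x u ≠ 0) →
      freq (fun x => E x ∧ ∀ u ∈ U, row x u (v x) = 0) ≤ Phi U.card * freq E := by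
  induction U using Finset.induction with
  | empty =>
    intro E v _ _ _
    simpa [Phi] using freq_mono (p := fun x => E x ∧ ∀ u ∈ (∅ : Finset (Fin n)),
      row x u (v x) = 0) (q := E) fun x hx => hx.1
  | @insert a U ha ih =>
    intro E v hE hv hne
    have hsub : U.sym2 ⊆ (insert a U).sym2 := Finset.sym2_mono (subset_insert _ _)
    set E' := fun x => E x ∧ row x a (v x) = 0
    have hE' : Indep U.sym2 E' := by
      intro x y hxy
      simp only [E', hE.mono hsub x y hxy, hv.mono hsub x y hxy]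
      rw [row_congr _ fun j => hxy _ fun h => ha (Finset.mk_mem_sym2_iff.1 h).1]
    have h1 := ih E' v hE' (hv.mono hsub) fun x hx u hu =>
      hne x hx.1 u (mem_insert_of_mem hu)
    set F := (insert a U).image (fun j => s(a, j)) with hF
    have hFsub : F ⊆ (insert a U).sym2 := by
      intro e he
      obtain ⟨j, hj, rfl⟩ := mem_image.1 he
      exact Finset.mk_mem_sym2_iff.2 ⟨mem_insert_self _ _, hj⟩
    have h2 : freq E' ≤ atom (insert a U).card * freq E := by
      refine freq_and_le (hE.mono hFsub) (atom_nonneg _) fun z hz => ?_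
      set y0 : F → Bool := fun _ => true
      refine le_trans (le_of_eq ?_) (fibre_row a (insert a U) F hF.symm (v (glue F y0 z))
        (hne _ (hz y0)) z)
      norm_cast
      refine Nat.card_congr (Equiv.subtypeEquivRight fun y => ?_)
      rw [indep_glue (hv.mono hFsub) y y0 z]
    calc freq (fun x => E x ∧ ∀ u ∈ insert a U, row x u (v x) = 0)
        ≤ freq (fun x => E' x ∧ ∀ u ∈ U, row x u (v x) = 0) :=
          freq_mono fun x hx => ⟨⟨hx.1, hx.2 a (mem_insert_self _ _)⟩,
            fun u hu => hx.2 u (mem_insert_of_mem hu)⟩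
      _ ≤ Phi U.card * freq E' := h1
      _ ≤ Phi U.card * (atom (insert a U).card * freq E) :=
          mul_le_mul_of_nonneg_left h2 (Phi_nonneg _)
      _ = Phi (insert a U).card * freq E := by
          rw [card_insert_of_notMem ha, Phi, Phi, prod_range_succ]; ring

theorem chain_out (S : Finset (Fin n)) (I : Finset (Fin n)) :
    Disjoint I S → ∀ (E : (Sym2 (Fin n) → Bool) → Prop)
      (v : (Sym2 (Fin n) → Bool) → Fin n → ℝ),
      Indep ((I ×ˢ S).image fun p => s(p.1, p.2)) E →
      Indep ((I ×ˢ S).image fun p => s(p.1, p.2)) v → (∀ x, E x → ∀ u ∈ S, v x u ≠ 0) →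
      freq (fun x => E x ∧ ∀ i ∈ I, row x i (v x) = 0) ≤ atom S.card ^ I.card * freq E := by
  induction I using Finset.induction with
  | empty =>
    intro _ E v _ _ _
    simpa using freq_mono (p := fun x => E x ∧ ∀ i ∈ (∅ : Finset (Fin n)),
      row x i (v x) = 0) (q := E) fun x hx => hx.1
  | @insert a I ha ih =>
    intro hd E v hE hv hne
    rw [Finset.disjoint_insert_left] at hd
    have hsub : (I ×ˢ S).image (fun p => s(p.1, p.2)) ⊆
        (insert a I ×ˢ S).image (fun p => s(p.1, p.2)) :=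
      image_subset_image (product_subset_product_left (subset_insert _ _))
    set E' := fun x => E x ∧ row x a (v x) = 0
    have hE' : Indep ((I ×ˢ S).image fun p => s(p.1, p.2)) E' := by
      intro x y hxy
      simp only [E', hE.mono hsub x y hxy, hv.mono hsub x y hxy]
      rw [row_congr _ fun j => hxy _ fun h => ?_]
      obtain ⟨⟨i, w⟩, hm, he⟩ := mem_image.1 h
      obtain ⟨hi, hw⟩ := mem_product.1 hm
      rcases Sym2.eq_iff.1 he with ⟨h1, -⟩ | ⟨-, h2⟩
      · exact ha (h1 ▸ hi)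
      · exact hd.1 (h2 ▸ hw)
    have h1 := ih hd.2 E' v hE' (hv.mono hsub) fun x hx u hu => hne x hx.1 u hu
    set F := S.image (fun j => s(a, j)) with hF
    have hFsub : F ⊆ (insert a I ×ˢ S).image (fun p => s(p.1, p.2)) := by
      intro e he
      obtain ⟨j, hj, rfl⟩ := mem_image.1 he
      exact mem_image.2 ⟨(a, j), mem_product.2 ⟨mem_insert_self _ _, hj⟩, rfl⟩
    have h2 : freq E' ≤ atom S.card * freq E := by
      refine freq_and_le (hE.mono hFsub) (atom_nonneg _) fun z hz => ?_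
      set y0 : F → Bool := fun _ => true
      refine le_trans (le_of_eq ?_) (fibre_row a S F hF.symm (v (glue F y0 z))
        (hne _ (hz y0)) z)
      norm_cast
      refine Nat.card_congr (Equiv.subtypeEquivRight fun y => ?_)
      rw [indep_glue (hv.mono hFsub) y y0 z]
    calc freq (fun x => E x ∧ ∀ i ∈ insert a I, row x i (v x) = 0)
        ≤ freq (fun x => E' x ∧ ∀ i ∈ I, row x i (v x) = 0) :=
          freq_mono fun x hx => ⟨⟨hx.1, hx.2 a (mem_insert_self _ _)⟩,
            fun u hu => hx.2 u (mem_insert_of_mem hu)⟩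
      _ ≤ atom S.card ^ I.card * freq E' := h1
      _ ≤ atom S.card ^ I.card * (atom S.card * freq E) :=
          mul_le_mul_of_nonneg_left h2 (pow_nonneg (atom_nonneg _) _)
      _ = atom S.card ^ (insert a I).card * freq E := by
          rw [card_insert_of_notMem ha, pow_succ]; ring

/-- An element chosen from a predicate, or zero. -/
def pick (P : (Fin n → ℝ) → Prop) : Fin n → ℝ :=
  Classical.epsilon P

theorem pick_spec {P : (Fin n → ℝ) → Prop} (h : ∃ v, P v) : P (pick P) :=
  Classical.epsilon_spec h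

/-- A vector of `W` killed by the rows in `R` and with no zero on `U` is killed by every row. -/
def Locked (W : Submodule ℝ (Fin n → ℝ)) (R U I : Finset (Fin n))
    (x : Sym2 (Fin n) → Bool) : Prop :=
  (∃ v : Fin n → ℝ, v ∈ W ∧ (∀ r ∈ R, row x r v = 0) ∧ ∀ u ∈ U, v u ≠ 0) ∧
    ∀ v ∈ W, (∀ r ∈ R, row x r v = 0) → ∀ i ∈ I, row x i v = 0

theorem locked_bound (W : Submodule ℝ (Fin n → ℝ)) (R U I : Finset (Fin n))
    (F : Finset (Sym2 (Fin n))) (hF : ∀ r ∈ R, ∀ j, s(r, j) ∉ F) (b : ℝ) (hb : 0 ≤ b)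
    (hchain : ∀ (E : (Sym2 (Fin n) → Bool) → Prop) (v : (Sym2 (Fin n) → Bool) → Fin n → ℝ),
      Indep F E → Indep F v → (∀ x, E x → ∀ u ∈ U, v x u ≠ 0) →
      freq (fun x => E x ∧ ∀ i ∈ I, row x i (v x) = 0) ≤ b * freq E) :
    freq (Locked W R U I) ≤ b := by
  set P := fun (x : Sym2 (Fin n) → Bool) (v : Fin n → ℝ) =>
    v ∈ W ∧ (∀ r ∈ R, row x r v = 0) ∧ ∀ u ∈ U, v u ≠ 0 with hP
  have hPi : Indep F P := by
    intro x y hxy
    funext v
    simp only [hP]
    congr 2
    refine propext ⟨fun h r hr => ?_, fun h r hr => ?_⟩ <;>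
      [rw [← row_congr v fun j => hxy _ (hF r hr j)]; rw [row_congr v fun j => hxy _ (hF r hr j)]]
    <;> exact h r hr
  refine le_trans (freq_mono ?_) ((hchain (fun x => ∃ v, P x v) (fun x => pick (P x))
    (fun x y h => by simp only [hPi x y h]) (fun x y h => by simp only [hPi x y h])
    fun x hx => (pick_spec hx).2.2).trans (mul_le_of_le_one_right hb (freq_le_one _)))
  rintro x ⟨hex, hall⟩
  obtain ⟨h1, h2, -⟩ := pick_spec (P := P x) hex
  exact ⟨hex, hall _ h1 h2⟩

theorem locked_block (W : Submodule ℝ (Fin n → ℝ)) {R U : Finset (Fin n)} (h : Disjoint R U) :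
    freq (Locked W R U U) ≤ Phi U.card :=
  locked_bound W R U U U.sym2
    (fun _ hr _ he => Finset.disjoint_left.1 h hr (Finset.mk_mem_sym2_iff.1 he).1) _
    (Phi_nonneg _) (chain_block U)

theorem locked_out (W : Submodule ℝ (Fin n → ℝ)) {R S I : Finset (Fin n)}
    (hRS : Disjoint R S) (hRI : Disjoint R I) (hIS : Disjoint I S) :
    freq (Locked W R S I) ≤ atom S.card ^ I.card :=
  locked_bound W R S I ((I ×ˢ S).image fun p => s(p.1, p.2))
    (fun r hr j he => by
      obtain ⟨⟨i, w⟩, hm, he'⟩ := mem_image.1 he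
      obtain ⟨hi, hw⟩ := mem_product.1 hm
      rcases Sym2.eq_iff.1 he' with ⟨h1, -⟩ | ⟨-, h2⟩
      · exact Finset.disjoint_left.1 hRI hr (h1 ▸ hi)
      · exact Finset.disjoint_left.1 hRS hr (h2 ▸ hw)) _
    (pow_nonneg (atom_nonneg _) _) (chain_out S I hIS)

/-- The functional on `W` given by row `i`. -/
def rowFun (x : Sym2 (Fin n) → Bool) (W : Submodule ℝ (Fin n → ℝ)) (i : Fin n) :
    Module.Dual ℝ W :=
  (LinearMap.proj i).comp ((Matrix.mulVecLin (symSign x)).comp W.subtype)

theorem rowFun_apply (x : Sym2 (Fin n) → Bool) (W : Submodule ℝ (Fin n → ℝ)) (i : Fin n)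
    (v : W) : rowFun x W i v = row x i v := rfl

theorem kills_of_span {x : Sym2 (Fin n) → Bool} {W : Submodule ℝ (Fin n → ℝ)} {i : Fin n}
    {R : Finset (Fin n)} (h : rowFun x W i ∈ Submodule.span ℝ (rowFun x W '' (R : Set (Fin n))))
    {v : Fin n → ℝ} (hv : v ∈ W) (hR : ∀ r ∈ R, row x r v = 0) : row x i v = 0 := by
  have hle : Submodule.span ℝ (rowFun x W '' (R : Set (Fin n))) ≤
      LinearMap.ker (LinearMap.applyₗ (R := ℝ) (⟨v, hv⟩ : W)) :=
    Submodule.span_le.2 (by rintro _ ⟨r, hr, rfl⟩; exact hR r hr)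
  exact hle h

/-- Rows spanning all rows on `W`, chosen with priority for the rows in `T`. -/
theorem exists_priority (x : Sym2 (Fin n) → Bool) (W : Submodule ℝ (Fin n → ℝ))
    (T : Finset (Fin n)) :
    ∃ RT R : Finset (Fin n), RT ⊆ T ∧ RT ⊆ R ∧ R.card ≤ Module.finrank ℝ W ∧
      (∀ v ∈ W, (∀ r ∈ RT, row x r v = 0) → ∀ i ∈ T, row x i v = 0) ∧
      (∀ v ∈ W, (∀ r ∈ R, row x r v = 0) → ∀ i, row x i v = 0) := by
  classical
  have h0 : LinearIndepOn ℝ (rowFun x W) (∅ : Set (Fin n)) := linearIndepOn_empty ℝ _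
  set A := h0.extend (Set.empty_subset (T : Set (Fin n))) with hA
  have hAi : LinearIndepOn ℝ (rowFun x W) A := h0.linearIndepOn_extend _
  set B := hAi.extend (Set.subset_univ A) with hB
  have hBi : LinearIndepOn ℝ (rowFun x W) B := hAi.linearIndepOn_extend _
  refine ⟨A.toFinset, B.toFinset, ?_, ?_, ?_, ?_, ?_⟩
  · intro i hi
    exact h0.extend_subset _ (Set.mem_toFinset.1 hi)
  · intro i hi
    exact Set.mem_toFinset.2 (hAi.subset_extend _ (Set.mem_toFinset.1 hi))
  · rw [Set.toFinset_card, ← Subspace.dual_finrank_eq]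
    exact hBi.fintype_card_le_finrank
  · intro v hv hR i hi
    refine kills_of_span (R := A.toFinset) ?_ hv hR
    rw [Set.coe_toFinset]
    exact h0.image_subset_span_image_extend _ ⟨i, hi, rfl⟩
  · intro v hv hR i
    refine kills_of_span (R := B.toFinset) ?_ hv hR
    rw [Set.coe_toFinset]
    exact hAi.image_subset_span_image_extend _ ⟨i, Set.mem_univ i, rfl⟩

/-- Vectors supported inside `S`. -/
def coordW (S : Finset (Fin n)) : Submodule ℝ (Fin n → ℝ) :=
  ⨅ i ∈ Sᶜ, LinearMap.ker (LinearMap.proj i)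

theorem mem_coordW {S : Finset (Fin n)} {v : Fin n → ℝ} :
    v ∈ coordW S ↔ ∀ i ∉ S, v i = 0 := by
  simp [coordW, Submodule.mem_iInf]

theorem finrank_coordW (S : Finset (Fin n)) : Module.finrank ℝ (coordW S) ≤ S.card := by
  have hinj : Function.Injective
      ((LinearMap.funLeft ℝ ℝ (fun i : S => (i : Fin n))).comp (coordW S).subtype) := by
    intro v w h
    apply Subtype.ext
    funext i
    by_cases hi : i ∈ S
    · exact congrFun h ⟨i, hi⟩
    · rw [mem_coordW.1 v.2 i hi, mem_coordW.1 w.2 i hi]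
  refine (LinearMap.finrank_le_finrank_of_injective hinj).trans (le_of_eq ?_)
  simp

/-- A null vector with support exactly `S`. -/
def SuppNull (S : Finset (Fin n)) (x : Sym2 (Fin n) → Bool) : Prop :=
  ∃ v : Fin n → ℝ, (∀ i, v i ≠ 0 ↔ i ∈ S) ∧ ∀ i, row x i v = 0

theorem suppNull_sparse (S : Finset (Fin n)) :
    freq (SuppNull S) ≤ ∑ R ∈ Sᶜ.powerset.filter (fun R => R.card ≤ S.card),
      atom S.card ^ (Sᶜ.card - R.card) := by
  set A := Sᶜ.powerset.filter (fun R => R.card ≤ S.card) with hA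
  set p := fun R => Locked (coordW S) R S (Sᶜ \ R) with hp
  have hu : freq (fun x => ∃ R ∈ A, p R x) ≤ ∑ R ∈ A, freq (p R) := freq_union A p
  refine le_trans (le_trans (freq_mono (q := fun x => ∃ R ∈ A, p R x) ?_) hu)
    (sum_le_sum fun R hR => ?_)
  · rintro x ⟨v, hv, hnull⟩
    obtain ⟨RT, R, h1, h2, h3, h4, -⟩ := exists_priority x (coordW S) Sᶜ
    refine ⟨RT, mem_filter.2 ⟨mem_powerset.2 h1,
      (card_le_card h2).trans (h3.trans (finrank_coordW S))⟩,
      ⟨v, mem_coordW.2 fun i hi => not_not.1 (mt (hv i).1 hi), fun r _ => hnull r,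
        fun u hu => (hv u).2 hu⟩, fun w hw hw0 i hi => h4 w hw hw0 i (sdiff_subset hi)⟩
  · obtain ⟨hR1, -⟩ := mem_filter.1 hR
    rw [mem_powerset] at hR1
    rw [← card_sdiff_of_subset hR1]
    exact locked_out _ (Finset.disjoint_left.2 fun r hr => mem_compl.1 (hR1 hr))
      disjoint_sdiff (Finset.disjoint_left.2 fun r hr => mem_compl.1 (sdiff_subset hr))

theorem suppNull_dense (S : Finset (Fin n)) (b : ℝ) (hb : 0 ≤ b)
    (hout : ∀ m, Sᶜ.card ≤ 2 * m → atom S.card ^ m ≤ b)
    (hblock : ∀ m, Sᶜ.card ≤ 2 * m → Phi m ≤ b) :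
    freq (SuppNull S) ≤ 2 * 2 ^ n * b := by
  refine (freq_mono (q := fun x =>
    (∃ R ∈ Sᶜ.powerset.filter (fun R => 2 * R.card ≤ Sᶜ.card),
      Locked (coordW S) R S (Sᶜ \ R) x) ∨
    (∃ R ∈ (univ : Finset (Finset (Fin n))).filter (fun R => Sᶜ.card ≤ 2 * (S \ R).card),
      Locked (coordW S) R (S \ R) (S \ R) x)) ?_).trans
    ((freq_or _ _).trans ?_)
  · rintro x ⟨v, hv, hnull⟩
    obtain ⟨RT, R, h1, h2, h3, h4, h5⟩ := exists_priority x (coordW S) Sᶜ
    have hvW : v ∈ coordW S := mem_coordW.2 fun i hi => not_not.1 (mt (hv i).1 hi)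
    by_cases h : 2 * RT.card ≤ Sᶜ.card
    · exact Or.inl ⟨RT, mem_filter.2 ⟨mem_powerset.2 h1, h⟩, ⟨v, hvW, fun r _ => hnull r,
        fun u hu => (hv u).2 hu⟩, fun w hw hw0 i hi => h4 w hw hw0 i (sdiff_subset hi)⟩
    · refine Or.inr ⟨R, mem_filter.2 ⟨mem_univ _, ?_⟩, ⟨v, hvW, fun r _ => hnull r,
        fun u hu => (hv u).2 (sdiff_subset hu)⟩, fun w hw hw0 i _ => h5 w hw hw0 i⟩
      have hdis : Disjoint RT (R ∩ S) :=
        Finset.disjoint_left.2 fun r hr hr' => mem_compl.1 (h1 hr) (mem_inter.1 hr').2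
      have hcard : RT.card + (R ∩ S).card ≤ R.card := by
        rw [← card_union_of_disjoint hdis]
        exact card_le_card (union_subset h2 inter_subset_left)
      have := h3.trans (finrank_coordW S)
      have := card_sdiff_add_card_inter S R
      rw [inter_comm S R] at this
      omega
  · have hbound : ∀ (A : Finset (Finset (Fin n))) (f : Finset (Fin n) → ℝ),
        (∀ R ∈ A, f R ≤ b) → ∑ R ∈ A, f R ≤ 2 ^ n * b := by
      intro A f hf
      calc ∑ R ∈ A, f R ≤ A.card • b := sum_le_card_nsmul A f b hf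
        _ ≤ 2 ^ n * b := by
          rw [nsmul_eq_mul]
          gcongr
          have := card_le_univ A
          rw [Fintype.card_finset, Fintype.card_fin] at this
          exact_mod_cast this
    have e : (2 : ℝ) * 2 ^ n * b = 2 ^ n * b + 2 ^ n * b := by ring
    rw [e]
    refine add_le_add ((freq_union _ _).trans (hbound _ _ fun R hR => ?_))
      ((freq_union _ _).trans (hbound _ _ fun R hR => ?_))
    · obtain ⟨hR1, hR2⟩ := mem_filter.1 hR
      rw [mem_powerset] at hR1
      refine (locked_out _ (Finset.disjoint_left.2 fun r hr => mem_compl.1 (hR1 hr))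
        disjoint_sdiff (Finset.disjoint_left.2 fun r hr => mem_compl.1 (sdiff_subset hr))).trans
        (hout _ ?_)
      rw [card_sdiff_of_subset hR1]
      omega
    · exact (locked_block _ disjoint_sdiff).trans (hblock _ (mem_filter.1 hR).2)

theorem family_cover (W : Submodule ℝ (Fin n → ℝ)) (d g : ℕ) (hd : Module.finrank ℝ W ≤ d)
    (b : ℝ) (hb : 0 ≤ b) (hblock : ∀ m, g ≤ m → Phi m ≤ b) :
    freq (fun x : Sym2 (Fin n) → Bool => ∃ v ∈ W, (∀ i, row x i v = 0) ∧
      d + g ≤ Nat.card {i // v i ≠ 0}) ≤ 4 ^ n * b := by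
  set A := (univ : Finset (Finset (Fin n) × Finset (Fin n))).filter
    (fun p => Disjoint p.1 p.2 ∧ g ≤ p.2.card)
  refine (freq_mono (q := fun x => ∃ p ∈ A, Locked W p.1 p.2 p.2 x) ?_).trans
    ((freq_union _ _).trans ?_)
  · rintro x ⟨v, hvW, hnull, hsupp⟩
    obtain ⟨RT, R, -, -, h3, -, h5⟩ := exists_priority x W ∅
    refine ⟨(R, (univ.filter fun i => v i ≠ 0) \ R),
      mem_filter.2 ⟨mem_univ _, disjoint_sdiff, ?_⟩,
      ⟨v, hvW, fun r _ => hnull r, fun u hu => (mem_filter.1 (sdiff_subset hu)).2⟩,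
      fun w hw hw0 i _ => h5 w hw hw0 i⟩
    rw [Nat.card_eq_fintype_card, Fintype.card_subtype] at hsupp
    have := le_card_sdiff R (univ.filter fun i => v i ≠ 0)
    simp only at *
    omega
  · calc ∑ p ∈ A, freq (Locked W p.1 p.2 p.2) ≤ A.card • b :=
          sum_le_card_nsmul _ _ _ fun p hp =>
            (locked_block W (mem_filter.1 hp).2.1).trans (hblock _ (mem_filter.1 hp).2.2)
      _ ≤ 4 ^ n * b := by
          rw [nsmul_eq_mul]
          gcongr
          have := card_le_univ A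
          rw [Fintype.card_prod, Fintype.card_finset, Fintype.card_fin, ← mul_pow] at this
          exact_mod_cast this

end

end Vale.Agent.P160
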