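import Mathlib
import Vale.Agent.P160.Events

/-!
Pairs of equal or opposite rows.
-/

namespace Vale.Agent.P160

open Finset

noncomputable section

variable {n : ℕ}

/-- Identity for `true`, negation for `false`. -/
def twist (σ b : Bool) : Bool := if σ then b else !b

theorem twist_twist (σ b : Bool) : twist σ (twist σ b) = b := by
  cases σ <;> cases b <;> rfl

/-- Column `i` equals column `j`, up to the sign given by `σ`. -/
def ColRel (p : Fin n × Fin n × Bool) (x : Sym2 (Fin n) → Bool) : Prop :=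
  ∀ k, x s(k, p.1) = twist p.2.2 (x s(k, p.2.1))

theorem ColRel.symm {i j : Fin n} {σ : Bool} {x : Sym2 (Fin n) → Bool}
    (h : ColRel (i, j, σ) x) : ColRel (j, i, σ) x := fun k => by
  show x s(k, j) = twist σ (x s(k, i))
  rw [show x s(k, i) = twist σ (x s(k, j)) from h k, twist_twist]

theorem freq_forced_of {κ ι : Type*} [Fintype ι] [DecidableEq ι] [DecidableEq κ] (U : Finset κ)
    (e : κ → ι) (he : Set.InjOn e U) (g : κ → (ι → Bool) → Bool)
    (hg : ∀ k ∈ U, Indep (U.image e) (g k)) :
    freq (fun x => ∀ k ∈ U, x (e k) = g k x) = 1 / 2 ^ U.card := by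
  classical
  let g' : ι → (ι → Bool) → Bool := fun i x =>
    if h : ∃ k ∈ U, e k = i then g h.choose x else true
  have hg' : ∀ k ∈ U, g' (e k) = g k := by
    intro k hk
    funext x
    have h : ∃ l ∈ U, e l = e k := ⟨k, hk, rfl⟩
    simp only [g', dif_pos h]
    rw [he h.choose_spec.1 hk h.choose_spec.2]
  have := freq_forced (F := U.image e) g' (fun i hi => by
    obtain ⟨k, hk, rfl⟩ := mem_image.1 hi
    rw [hg' k hk]
    exact hg k hk)
  rw [card_image_of_injOn he] at this
  rw [← this]
  congr 1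
  funext x
  refine propext ⟨fun h i hi => ?_, fun h k hk => ?_⟩
  · obtain ⟨k, hk, rfl⟩ := mem_image.1 hi
    rw [hg' k hk]
    exact h k hk
  · rw [← hg' k hk]
    exact h _ (mem_image_of_mem e hk)

theorem freq_colRel (p : Fin n × Fin n × Bool) (hp : p.1 ≠ p.2.1) :
    freq (ColRel p) = 1 / 2 ^ n := by
  classical
  obtain ⟨i, j, σ⟩ := p
  simp only at hp
  let g : Fin n → (Sym2 (Fin n) → Bool) → Bool :=
    fun k x => if k = i then x s(j, j) else twist σ (x s(k, j))
  have h := freq_forced_of (univ : Finset (Fin n)) (fun k => s(k, i))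
    (fun k _ l _ h => Sym2.congr_left.1 h) g ?_
  · simp only [mem_univ, true_implies, card_univ, Fintype.card_fin] at h
    rw [← h]
    congr 1
    funext x
    refine propext ⟨fun h k => ?_, fun h k => ?_⟩
    · simp only [g]
      split_ifs with hk
      · subst hk
        have hj : x s(j, k) = twist σ (x s(j, j)) := h j
        rw [show x s(k, k) = twist σ (x s(k, j)) from h k, Sym2.eq_swap, hj, twist_twist]
      · exact h k
    · show x s(k, i) = twist σ (x s(k, j))
      have hk := h k
      simp only [g] at hk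
      split_ifs at hk with hki
      · subst hki
        have hj := h j
        simp only [g, if_neg (Ne.symm hp)] at hj
        rw [hk, Sym2.eq_swap (a := k) (b := j), hj, twist_twist]
      · exact hk
  · intro k _ x y hxy
    have key : ∀ w, w ≠ i → x s(w, j) = y s(w, j) := by
      intro w hw
      refine hxy _ fun hm => ?_
      obtain ⟨l, -, hl⟩ := mem_image.1 hm
      rcases Sym2.eq_iff.1 hl with ⟨-, h2⟩ | ⟨-, h2⟩
      · exact hp h2
      · exact hw h2.symm
    simp only [g]
    split_ifs with hk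
    · exact key j (Ne.symm hp)
    · rw [key k hk]

theorem freq_colRel_pair_aux (a b c d : Fin n) (σ τ : Bool) (hab : a ≠ b) (hcd : c ≠ d)
    (hac : a ≠ c) (had : a ≠ d) (hbc : b ≠ c) :
    freq (fun x => ColRel (a, b, σ) x ∧ ColRel (c, d, τ) x) ≤ 1 / 4 ^ (n - 4) := by
  classical
  let K : Finset (Fin n) := univ \ {a, b, c, d}
  let e : Fin n × Bool → Sym2 (Fin n) := fun q => if q.2 then s(q.1, a) else s(q.1, c)
  let g : Fin n × Bool → (Sym2 (Fin n) → Bool) → Bool :=
    fun q x => if q.2 then twist σ (x s(q.1, b)) else twist τ (x s(q.1, d))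
  have hK : ∀ k ∈ K, k ≠ a ∧ k ≠ b ∧ k ≠ c ∧ k ≠ d := by
    intro k hk
    simpa [K] using hk
  have he : Set.InjOn e (K ×ˢ (univ : Finset Bool) : Finset _) := by
    rintro ⟨k, u⟩ hk ⟨l, v⟩ hl h
    simp only [coe_product, Set.mem_prod, mem_coe] at hk hl
    obtain ⟨k1, k2, k3, k4⟩ := hK k hk.1
    obtain ⟨l1, l2, l3, l4⟩ := hK l hl.1
    cases u <;> cases v <;> simp [e, Sym2.eq_iff, hac, Ne.symm hac, k1, k3] at h ⊢ <;> exact h
  have hg : ∀ q ∈ K ×ˢ (univ : Finset Bool), Indep ((K ×ˢ univ).image e) (g q) := by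
    rintro ⟨k, u⟩ hk x y hxy
    obtain ⟨k1, k2, k3, k4⟩ := hK k (mem_product.1 hk).1
    have key : ∀ w, w ≠ a → w ≠ c → x s(k, w) = y s(k, w) := by
      intro w wa wc
      refine hxy _ fun hm => ?_
      obtain ⟨⟨l, v⟩, -, hl⟩ := mem_image.1 hm
      cases v <;> simp [e, Sym2.eq_iff, wa.symm, wc.symm, k1.symm, k3.symm] at hl
    cases u
    · simp only [g, Bool.false_eq_true, if_false]
      rw [key d (Ne.symm had) (Ne.symm hcd)]
    · simp only [g, if_true]
      rw [key b (Ne.symm hab) hbc]
  refine (freq_mono (q := fun x => ∀ q ∈ K ×ˢ (univ : Finset Bool), x (e q) = g q x) ?_).trans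
    (le_trans (le_of_eq (freq_forced_of _ e he g hg)) ?_)
  · rintro x ⟨h1, h2⟩ ⟨k, u⟩ -
    cases u
    · exact h2 k
    · exact h1 k
  · rw [card_product, card_univ, Fintype.card_bool, mul_comm, pow_mul]
    norm_num
    gcongr
    · norm_num
    · have h1 : ({a, b, c, d} : Finset (Fin n)).card ≤ 4 := card_le_four
      have h2 := le_card_sdiff ({a, b, c, d} : Finset (Fin n)) univ
      rw [card_univ, Fintype.card_fin] at h2
      simp only [K]
      omega

/-- Unordered pairs of distinct indices with a sign. -/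
def pairs (n : ℕ) : Finset (Fin n × Fin n × Bool) := univ.filter fun p => p.1 < p.2.1

theorem card_pairs (n : ℕ) : ((pairs n).card : ℝ) = (n : ℝ) * (n - 1) := by
  classical
  set L := (univ : Finset (Fin n × Fin n)).filter fun p => p.1 < p.2 with hL
  set G := (univ : Finset (Fin n × Fin n)).filter fun p => p.2 < p.1
  have hGL : G.card = L.card := by
    rw [← card_map (Equiv.prodComm (Fin n) (Fin n)).toEmbedding (s := L)]
    congr 1
    ext ⟨a, b⟩
    simp [G, L]
  have hoff : (univ : Finset (Fin n)).offDiag = L ∪ G := by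
    ext ⟨a, b⟩
    simp [L, G]
  have hdis : Disjoint L G := by
    rw [Finset.disjoint_left]
    rintro ⟨a, b⟩ h1 h2
    simp [L, G] at h1 h2
    exact lt_asymm h1 h2
  have h2L : 2 * L.card = n * n - n := by
    have := congrArg Finset.card hoff
    rw [offDiag_card, card_union_of_disjoint hdis, hGL, card_univ, Fintype.card_fin] at this
    omega
  have hpairs : (pairs n).card = L.card * 2 := by
    rw [show L.card * 2 = (L ×ˢ (univ : Finset Bool)).card by simp,
      ← card_map (Equiv.prodAssoc (Fin n) (Fin n) Bool).toEmbedding (s := L ×ˢ univ)]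
    congr 1
    ext ⟨a, b, c⟩
    simp [pairs, L]
  rw [hpairs, mul_comm, h2L, Nat.cast_sub (Nat.le_mul_self n)]
  push_cast
  ring

theorem freq_colRel_pair {p q : Fin n × Fin n × Bool} (hp : p ∈ pairs n) (hq : q ∈ pairs n)
    (hne : p ≠ q) : freq (fun x => ColRel p x ∧ ColRel q x) ≤ 1 / 4 ^ (n - 4) := by
  obtain ⟨i, j, σ⟩ := p
  obtain ⟨i', j', τ⟩ := q
  simp only [pairs, mem_filter, mem_univ, true_and] at hp hq
  by_cases hii : i = i'
  · subst hii
    by_cases hjj : j = j'
    · subst hjj
      have : σ ≠ τ := fun h => hne (by rw [h])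
      refine (freq_mono (q := fun _ => False) ?_).trans ?_
      · rintro x ⟨h1, h2⟩
        have a1 : x s(i, i) = twist σ (x s(i, j)) := h1 i
        have a2 : x s(i, i) = twist τ (x s(i, j)) := h2 i
        rw [a1] at a2
        cases σ <;> cases τ <;> cases hx : x s(i, j) <;> simp_all [twist]
      · simp [freq]
    · refine le_trans (freq_mono fun x h => ⟨h.1.symm, h.2.symm⟩)
        (freq_colRel_pair_aux j i j' i σ τ hp.ne' hq.ne' hjj hp.ne' hq.ne)
  · by_cases hij : i = j'
    · subst hij
      exact le_trans (freq_mono fun x h => ⟨h.1.symm, h.2⟩)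
        (freq_colRel_pair_aux j i i' i σ τ hp.ne' hq.ne
          (fun h => by subst h; exact lt_asymm hp hq) hp.ne' hii)
    · by_cases hji : j = i'
      · subst hji
        exact le_trans (freq_mono fun x h => ⟨h.1, h.2.symm⟩)
          (freq_colRel_pair_aux i j j' j σ τ hp.ne hq.ne' hij hp.ne hq.ne)
      · exact freq_colRel_pair_aux i j i' j' σ τ hp.ne hq.ne hii hij hji

theorem sum_le_freq_union {κ ι : Type*} [Fintype ι] [DecidableEq ι] [DecidableEq κ]
    (s : Finset κ) (p : κ → (ι → Bool) → Prop) :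
    ∑ k ∈ s, freq (p k) ≤
      freq (fun x => ∃ k ∈ s, p k x) + ∑ q ∈ s.offDiag, freq (fun x => p q.1 x ∧ p q.2 x) := by
  classical
  unfold freq
  rw [← sum_div, ← sum_div, ← add_div]
  gcongr
  simp only [Nat.card_eq_fintype_card, Fintype.card_subtype]
  norm_cast
  simp only [card_filter]
  rw [sum_comm, sum_comm (s := s.offDiag), ← sum_add_distrib]
  refine sum_le_sum fun x _ => ?_
  rw [← card_filter, ← card_filter]
  have e : (s.offDiag.filter fun q => p q.1 x ∧ p q.2 x) = (s.filter fun k => p k x).offDiag := by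
    ext ⟨a, b⟩
    simp only [mem_filter, mem_offDiag]
    tauto
  rw [e, offDiag_card]
  set m := (s.filter fun k => p k x).card with hm
  by_cases h : ∃ k ∈ s, p k x
  · rw [if_pos h]
    rcases Nat.lt_or_ge m 2 with h2 | h2
    · omega
    · have := Nat.mul_le_mul_left m h2
      omega
  · rw [if_neg h]
    have : m = 0 := by
      rw [hm, card_eq_zero, filter_eq_empty_iff]
      exact fun k hk hk' => h ⟨k, hk, hk'⟩
    simp [this]

/-- The vector killed by `symSign x` when `ColRel p x` holds. -/
def pairVec (p : Fin n × Fin n × Bool) : Fin n → ℝ :=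
  Pi.single p.1 1 - Pi.single p.2.1 (sgn p.2.2)

theorem pairVec_null {p : Fin n × Fin n × Bool} {x : Sym2 (Fin n) → Bool} (h : ColRel p x)
    (k : Fin n) : row x k (pairVec p) = 0 := by
  obtain ⟨i, j, σ⟩ := p
  simp only [row, pairVec, Pi.sub_apply, mul_sub, sum_sub_distrib, Pi.single_apply, mul_ite,
    mul_zero, mul_one, sum_ite_eq', mem_univ, if_true]
  rw [show x s(k, i) = twist σ (x s(k, j)) from h k]
  cases σ <;> cases x s(k, j) <;> simp [twist, sgn]

theorem suppNull_one {S : Finset (Fin n)} (hS : S.card = 1) (x : Sym2 (Fin n) → Bool) :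
    ¬ SuppNull S x := by
  rintro ⟨v, hv, hnull⟩
  obtain ⟨i, rfl⟩ := card_eq_one.1 hS
  have h := hnull i
  rw [row, sum_eq_single i (fun j _ hj => by simp [not_not.1 (mt (hv j).1 (by simp [hj]))])
    (by simp)] at h
  exact mul_ne_zero (sgn_ne_zero _) ((hv i).2 (by simp)) h

theorem suppNull_two {S : Finset (Fin n)} (hS : S.card = 2) {x : Sym2 (Fin n) → Bool}
    (h : SuppNull S x) : ∃ p ∈ pairs n, ColRel p x := by
  obtain ⟨v, hv, hnull⟩ := h
  obtain ⟨i, j, hij, rfl⟩ := card_eq_two.1 hS
  wlog hlt : i < j generalizing i j with H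
  · refine H j i hij.symm (card_pair hij.symm) ?_ (lt_of_le_of_ne (not_lt.1 hlt) hij.symm)
    intro k
    rw [hv k, pair_comm]
  have hrow : ∀ k, sgn (x s(k, i)) * v i + sgn (x s(k, j)) * v j = 0 := by
    intro k
    have h := hnull k
    rw [row, ← sum_subset (subset_univ ({i, j} : Finset (Fin n)))
      (fun l _ hl => by simp [not_not.1 (mt (hv l).1 hl)]), sum_pair hij] at h
    exact h
  have hi : v i ≠ 0 := (hv i).2 (by simp)
  refine ⟨(i, j, decide (x s(i, i) = x s(i, j))), by simp [pairs, hlt], fun k => ?_⟩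
  have h1 := hrow i
  have h2 := hrow k
  show x s(k, i) = twist _ (x s(k, j))
  generalize x s(i, i) = a at *
  generalize x s(i, j) = b at *
  generalize x s(k, i) = c at *
  generalize x s(k, j) = d at *
  cases a <;> cases b <;> cases c <;> cases d <;>
    simp [twist, sgn] at h1 h2 ⊢ <;> exact hi (by linarith)

end

end Vale.Agent.P160
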