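import Mathlib
import Vale.Agent.P160.Pairs

/-!
Asymptotics of the probability of a null vector that is not dense.
-/

namespace Vale.Agent.P160

open Finset Filter Topology

noncomputable section

theorem Phi_sq_le (m : ℕ) : Phi m ^ 2 ≤ 1 / (m.factorial : ℝ) := by
  induction m with
  | zero => simp [Phi]
  | succ m ih =>
    have h := atom_sq (m + 1)
    have h' : atom (m + 1) ^ 2 ≤ 1 / ((m : ℝ) + 1) := by
      rw [le_div_iff₀ (by positivity)]
      push_cast at h
      nlinarith [sq_nonneg (atom (m + 1))]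
    calc Phi (m + 1) ^ 2 = Phi m ^ 2 * atom (m + 1) ^ 2 := by
          rw [Phi, Phi, prod_range_succ, mul_pow]
      _ ≤ 1 / (m.factorial : ℝ) * (1 / ((m : ℝ) + 1)) :=
          mul_le_mul ih h' (sq_nonneg _) (by positivity)
      _ = _ := by
          rw [Nat.factorial_succ]
          push_cast
          field_simp

theorem Phi_le_exp {m : ℕ} (hm : 0 < m) :
    Phi m ≤ Real.exp (-((m : ℝ) / 2) * (Real.log m - 1)) := by
  have hm' : (0 : ℝ) < m := by exact_mod_cast hm
  have h := Real.pow_div_factorial_le_exp (m : ℝ) hm'.le m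
  have hpow : (m : ℝ) ^ m = Real.exp ((m : ℝ) * Real.log m) := by
    rw [← Real.rpow_natCast, Real.rpow_def_of_pos hm']
    ring_nf
  refine (pow_le_pow_iff_left₀ (Phi_nonneg m) (Real.exp_pos _).le two_ne_zero).1 ?_
  calc Phi m ^ 2 ≤ 1 / (m.factorial : ℝ) := Phi_sq_le m
    _ = (m : ℝ) ^ m / (m.factorial : ℝ) / (m : ℝ) ^ m := by field_simp
    _ ≤ Real.exp m / Real.exp ((m : ℝ) * Real.log m) := by
        rw [hpow] at h ⊢
        gcongr
    _ = _ := by
        rw [← Real.exp_sub, ← Real.exp_nat_mul]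
        congr 1
        push_cast
        ring

theorem eventually_log_large (B : ℝ) : ∀ᶠ n : ℕ in atTop, B ≤ Real.log n :=
  (Real.tendsto_log_atTop.comp tendsto_natCast_atTop_atTop).eventually (eventually_ge_atTop B)

theorem eventually_Phi :
    ∀ᶠ n : ℕ in atTop, ∀ (a : ℝ) (m : ℕ), 1 ≤ a → a * n / Real.log n ≤ m →
      Phi m ≤ Real.exp (-(3 * a / 8) * n) := by
  have h1 : ∀ᶠ L : ℝ in atTop, Real.log L + 1 ≤ L / 4 := by
    have := Real.isLittleO_log_id_atTop.bound (show (0 : ℝ) < 1 / 8 by norm_num)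
    filter_upwards [this, eventually_ge_atTop (8 : ℝ)] with L hL hL8
    rw [Real.norm_eq_abs, Real.norm_eq_abs, id, abs_of_nonneg (show (0:ℝ) ≤ L by linarith)] at hL
    linarith [le_abs_self (Real.log L)]
  filter_upwards [(Real.tendsto_log_atTop.comp tendsto_natCast_atTop_atTop).eventually h1,
    eventually_log_large 1] with n hn hL a m ha hm
  set L := Real.log n
  simp only [Function.comp] at hn
  have hn0 : (0 : ℝ) < n := by
    rcases Nat.eq_zero_or_pos n with rfl | h
    · simp [L] at hL; linarith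
    · exact_mod_cast h
  have hq : (n : ℝ) / L ≤ m := by
    refine le_trans ?_ hm
    gcongr
    nlinarith
  have hm0 : (0 : ℝ) < m := lt_of_lt_of_le (by positivity) hq
  have hlog : 3 / 4 * L ≤ Real.log m - 1 := by
    have h := Real.log_le_log (by positivity) hq
    rw [Real.log_div hn0.ne' (by linarith)] at h
    linarith
  refine (Phi_le_exp (by exact_mod_cast hm0)).trans (Real.exp_le_exp.2 ?_)
  have h2 : a * n ≤ m * L := by
    rwa [div_le_iff₀ (by linarith)] at hm
  nlinarith [mul_le_mul_of_nonneg_left hlog hm0.le]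

theorem eventually_atom :
    ∀ᶠ n : ℕ in atTop, ∀ s m : ℕ, n ≤ 500 * s → 8 * n / Real.log n ≤ m →
      atom s ^ m ≤ Real.exp (-3 * n) := by
  filter_upwards [eventually_log_large (4 * Real.log 500 + 1)] with n hn s m hs hm
  have h500 : 0 ≤ Real.log 500 := Real.log_nonneg (by norm_num)
  have hn0 : (0 : ℝ) < n := by
    rcases Nat.eq_zero_or_pos n with rfl | h
    · simp at hn; linarith
    · exact_mod_cast h
  have hs' : (n : ℝ) / 500 ≤ (s : ℝ) + 1 := by
    have : (n : ℝ) ≤ 500 * s := by exact_mod_cast hs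
    linarith
  have hlog : 3 / 4 * Real.log n ≤ Real.log ((s : ℝ) + 1) := by
    have h := Real.log_le_log (by positivity) hs'
    rw [Real.log_div hn0.ne' (by norm_num)] at h
    linarith
  calc atom s ^ m ≤ (1 / Real.sqrt ((s : ℝ) + 1)) ^ m :=
        pow_le_pow_left₀ (atom_nonneg _) (atom_le_sqrt s) m
    _ = Real.exp (-((m : ℝ) / 2) * Real.log ((s : ℝ) + 1)) := by
        rw [one_div, ← Real.exp_log (show (0 : ℝ) < Real.sqrt ((s : ℝ) + 1) by positivity),
          ← Real.exp_neg, ← Real.exp_nat_mul, Real.log_sqrt (by positivity)]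
        congr 1
        ring
    _ ≤ _ := by
        refine Real.exp_le_exp.2 ?_
        have h2 : 8 * (n : ℝ) ≤ m * Real.log n := by
          rwa [div_le_iff₀ (by linarith)] at hm
        nlinarith [mul_le_mul_of_nonneg_left hlog (Nat.cast_nonneg m : (0:ℝ) ≤ m)]

theorem freq_sparse_le (n : ℕ) :
    freq (fun x : Sym2 (Fin n) → Bool => ∃ S ∈ (univ : Finset (Finset (Fin n))).filter
      (fun S => 3 ≤ S.card ∧ 500 * S.card ≤ n), SuppNull S x) ≤ (12 / 25 : ℝ) ^ n := by
  refine (freq_union _ (fun S => SuppNull S)).trans ?_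
  calc
    ∑ S ∈ univ.filter (fun S : Finset (Fin n) => 3 ≤ S.card ∧ 500 * S.card ≤ n),
        freq (SuppNull S)
      ≤ ∑ S ∈ univ.filter (fun S : Finset (Fin n) => 3 ≤ S.card ∧ 500 * S.card ≤ n),
        ((9 / 20 : ℝ) * (101 / 100) * (104 / 100)) ^ n * (1 / 100) ^ S.card := by
      refine sum_le_sum fun S hS => ?_
      obtain ⟨-, h3, h500⟩ := mem_filter.1 hS
      set s := S.card with hs
      have ht : Sᶜ.card = n - s := by rw [card_compl, Fintype.card_fin]
      have hbase : (5000000 : ℝ) ^ s ≤ (104 / 100) ^ n := by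
        have h7 : (5000000 : ℝ) ≤ (104 / 100 : ℝ) ^ 500 := by
          rw [show (500 : ℕ) = 50 * 10 by norm_num, pow_mul]
          refine le_trans (by norm_num : (5000000 : ℝ) ≤ 7 ^ 10)
            (pow_le_pow_left₀ (by norm_num) (by norm_num) 10)
        calc (5000000 : ℝ) ^ s ≤ ((104 / 100 : ℝ) ^ 500) ^ s :=
              pow_le_pow_left₀ (by norm_num) h7 s
          _ = (104 / 100) ^ (500 * s) := (pow_mul _ _ _).symm
          _ ≤ _ := pow_le_pow_right₀ (by norm_num) h500
      calc freq (SuppNull S)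
          ≤ ∑ R ∈ Sᶜ.powerset.filter (fun R => R.card ≤ s), atom s ^ (Sᶜ.card - R.card) :=
            suppNull_sparse S
        _ ≤ ∑ R ∈ Sᶜ.powerset.filter (fun R => R.card ≤ s),
              (9 / 20 : ℝ) ^ (n - 2 * s) * (100 ^ s * (1 / 100) ^ R.card) := by
            refine sum_le_sum fun R hR => ?_
            have hRs : R.card ≤ s := (mem_filter.1 hR).2
            refine (pow_le_pow_left₀ (atom_nonneg _) (atom_le_of_three_le h3) _).trans ?_
            refine (pow_le_pow_of_le_one (by norm_num) (by norm_num)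
              (show n - 2 * s ≤ Sᶜ.card - R.card by omega)).trans
              (le_mul_of_one_le_right (by positivity) ?_)
            rw [show (100 : ℝ) ^ s = 100 ^ R.card * 100 ^ (s - R.card) by
              rw [← pow_add]; congr 1; omega]
            rw [show (100 : ℝ) ^ R.card * 100 ^ (s - R.card) * (1 / 100) ^ R.card
              = 100 ^ (s - R.card) by rw [mul_right_comm, ← mul_pow]; norm_num]
            exact one_le_pow₀ (by norm_num)
        _ ≤ ∑ R : Finset (Fin n),
              (9 / 20 : ℝ) ^ (n - 2 * s) * (100 ^ s * (1 / 100) ^ R.card) :=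
            sum_le_sum_of_subset_of_nonneg (subset_univ _) fun _ _ _ => by positivity
        _ = (9 / 20 : ℝ) ^ (n - 2 * s) * 100 ^ s * (101 / 100) ^ n := by
            have := Fintype.sum_pow_mul_eq_add_pow (Fin n) (1 / 100 : ℝ) 1
            simp only [one_pow, mul_one, Fintype.card_fin] at this
            rw [← mul_sum, ← mul_sum, this]
            norm_num
            ring
        _ = (9 / 20 : ℝ) ^ n * (101 / 100) ^ n * ((400 / 81) ^ s * 100 ^ s) := by
            have e : (9 / 20 : ℝ) ^ n = (9 / 20) ^ (n - 2 * s) * (81 / 400) ^ s := by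
              rw [show (81 / 400 : ℝ) = (9 / 20) ^ 2 by norm_num, ← pow_mul, ← pow_add]
              congr 1
              omega
            rw [e]
            have : ((81 / 400 : ℝ)) ^ s * (400 / 81) ^ s = 1 := by
              rw [← mul_pow]; norm_num
            linear_combination
              -((9 / 20 : ℝ) ^ (n - 2 * s) * (101 / 100) ^ n * 100 ^ s) * this
        _ ≤ (9 / 20 : ℝ) ^ n * (101 / 100) ^ n * ((104 / 100) ^ n * (1 / 100) ^ s) := by
            refine mul_le_mul_of_nonneg_left ?_ (by positivity)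
            calc (400 / 81 : ℝ) ^ s * 100 ^ s ≤ (5000000 : ℝ) ^ s * (1 / 100) ^ s := by
                  rw [← mul_pow, ← mul_pow]
                  exact pow_le_pow_left₀ (by norm_num) (by norm_num) s
              _ ≤ _ := by gcongr
        _ = _ := by rw [mul_pow, mul_pow]; ring
    _ ≤ ∑ S : Finset (Fin n),
        ((9 / 20 : ℝ) * (101 / 100) * (104 / 100)) ^ n * (1 / 100) ^ S.card :=
      sum_le_sum_of_subset_of_nonneg (subset_univ _) fun _ _ _ => by positivity
    _ ≤ _ := by
      have := Fintype.sum_pow_mul_eq_add_pow (Fin n) (1 / 100 : ℝ) 1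
      simp only [one_pow, mul_one, Fintype.card_fin] at this
      rw [← mul_sum, this, ← mul_pow]
      exact pow_le_pow_left₀ (by norm_num) (by norm_num) n

theorem exp_neg_three : 4 * Real.exp (-3) ≤ 1 / 4 := by
  have h1 : (16 : ℝ) ≤ Real.exp 3 := by
    have h : Real.exp 3 = Real.exp 1 ^ 3 := by
      rw [← Real.exp_nat_mul]; norm_num
    rw [h]
    refine le_trans ?_ (pow_le_pow_left₀ (by norm_num)
      (show (2.7 : ℝ) ≤ Real.exp 1 by linarith [Real.exp_one_gt_d9]) 3)
    norm_num
  rw [Real.exp_neg, ← div_eq_mul_inv, div_le_iff₀ (by positivity)]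
  linarith

theorem eventually_dense :
    ∀ᶠ n : ℕ in atTop,
      freq (fun x : Sym2 (Fin n) → Bool => ∃ S ∈ (univ : Finset (Finset (Fin n))).filter
        (fun S => n < 500 * S.card ∧ (S.card : ℝ) + 16 * n / Real.log n ≤ n), SuppNull S x)
        ≤ 2 * (1 / 4 : ℝ) ^ n := by
  filter_upwards [eventually_Phi, eventually_atom] with n hphi hatom
  refine (freq_union _ (fun S => SuppNull S)).trans ?_
  calc
    ∑ S ∈ univ.filter (fun S : Finset (Fin n) =>
          n < 500 * S.card ∧ (S.card : ℝ) + 16 * n / Real.log n ≤ n), freq (SuppNull S)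
      ≤ ∑ S ∈ univ.filter (fun S : Finset (Fin n) =>
          n < 500 * S.card ∧ (S.card : ℝ) + 16 * n / Real.log n ≤ n),
          2 * 2 ^ n * Real.exp (-3 * n) := by
      refine sum_le_sum fun S hS => ?_
      obtain ⟨-, hs, ht⟩ := mem_filter.1 hS
      have hm : ∀ m : ℕ, Sᶜ.card ≤ 2 * m → 8 * (n : ℝ) / Real.log n ≤ m := by
        intro m hm
        have hle : S.card ≤ n := by simpa using card_le_univ S
        rw [card_compl, Fintype.card_fin] at hm
        have : ((n - S.card : ℕ) : ℝ) ≤ 2 * (m : ℝ) := by exact_mod_cast hm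
        rw [Nat.cast_sub hle] at this
        have e : 16 * (n : ℝ) / Real.log n = 2 * (8 * n / Real.log n) := by ring
        linarith
      refine suppNull_dense S _ (Real.exp_pos _).le (fun m h => hatom _ m hs.le (hm m h))
        (fun m h => (hphi 8 m (by norm_num) (hm m h)).trans (le_of_eq ?_))
      norm_num
    _ ≤ ∑ _S : Finset (Fin n), 2 * 2 ^ n * Real.exp (-3 * n) :=
      sum_le_sum_of_subset_of_nonneg (subset_univ _) fun _ _ _ => by positivity
    _ = 2 * (4 * Real.exp (-3)) ^ n := by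
      rw [sum_const, card_univ, Fintype.card_finset, Fintype.card_fin, nsmul_eq_mul, mul_pow,
        ← Real.exp_nat_mul, show (4 : ℝ) ^ n = 2 ^ n * 2 ^ n by rw [← mul_pow]; norm_num,
        mul_comm (n : ℝ)]
      push_cast
      ring
    _ ≤ _ := by
      gcongr
      exact exp_neg_three

theorem freq_split {ι : Type*} [Fintype ι] (p r : (ι → Bool) → Prop) :
    freq p = freq (fun x => p x ∧ r x) + freq (fun x => p x ∧ ¬ r x) := by
  classical
  unfold freq
  rw [← add_div]
  congr 1
  simp only [Nat.card_eq_fintype_card, Fintype.card_subtype, ← Nat.cast_add]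
  rw [← filter_filter, ← filter_filter, card_filter_add_card_filter_not]

theorem nondense_upper :
    ∀ᶠ n : ℕ in atTop, prob n HasNondenseNull ≤
      (n : ℝ) * (n - 1) / 2 ^ n + (12 / 25 : ℝ) ^ n + 2 * (1 / 4 : ℝ) ^ n := by
  filter_upwards [eventually_dense] with n hdense
  rw [prob_eq_freq]
  set A := (univ : Finset (Finset (Fin n))).filter
    (fun S => 3 ≤ S.card ∧ 500 * S.card ≤ n) with hA
  set B := (univ : Finset (Finset (Fin n))).filter
    (fun S => n < 500 * S.card ∧ (S.card : ℝ) + 16 * n / Real.log n ≤ n) with hB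
  set pP := fun x : Sym2 (Fin n) → Bool => ∃ p ∈ pairs n, ColRel p x with hpP
  set pA := fun x : Sym2 (Fin n) → Bool => ∃ S ∈ A, SuppNull S x with hpA
  set pB := fun x : Sym2 (Fin n) → Bool => ∃ S ∈ B, SuppNull S x with hpB
  have h1 : freq pA ≤ (12 / 25 : ℝ) ^ n := freq_sparse_le n
  have h2 := freq_or (fun x => pP x ∨ pA x) pB
  have h3 := freq_or pP pA
  have h4 : freq pP ≤ (n : ℝ) * (n - 1) / 2 ^ n := by
    refine (freq_union (pairs n) ColRel).trans (le_of_eq ?_)
    rw [sum_congr rfl (fun p hp => freq_colRel p (mem_filter.1 hp).2.ne), sum_const,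
      nsmul_eq_mul, card_pairs]
    ring
  refine le_trans (freq_mono (q := fun x => (pP x ∨ pA x) ∨ pB x) ?_) (by linarith)
  rintro x ⟨v, hv, hnull, hsupp⟩
  set S := univ.filter fun i => v i ≠ 0
  have hS : Nat.card {i // v i ≠ 0} = S.card := by
    rw [Nat.card_eq_fintype_card, Fintype.card_subtype]
  rw [hS] at hsupp
  have hnullS : SuppNull S x :=
    ⟨v, fun i => by simp [S], fun i => by rw [← mulVec_eq_row, hnull]; rfl⟩
  have hpos : 0 < S.card := by
    rw [card_pos]
    obtain ⟨i, hi⟩ := Function.ne_iff.1 hv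
    exact ⟨i, by simpa [S] using hi⟩
  by_cases h1 : S.card = 1
  · exact absurd hnullS (suppNull_one h1 x)
  by_cases h2 : S.card = 2
  · exact Or.inl (Or.inl (suppNull_two h2 hnullS))
  by_cases h500 : 500 * S.card ≤ n
  · exact Or.inl (Or.inr ⟨S, mem_filter.2 ⟨mem_univ _, by omega, h500⟩, hnullS⟩)
  · exact Or.inr ⟨S, mem_filter.2 ⟨mem_univ _, not_le.1 h500, hsupp⟩, hnullS⟩

theorem nondense_lower :
    ∀ᶠ n : ℕ in atTop, (n : ℝ) * (n - 1) / 2 ^ n - 256 * (n : ℝ) ^ 4 * (1 / 4 : ℝ) ^ n ≤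
      prob n HasNondenseNull := by
  filter_upwards [eventually_ge_atTop 4, eventually_log_large 32] with n hn hlog
  rw [prob_eq_freq]
  have h := sum_le_freq_union (pairs n) ColRel
  rw [sum_congr rfl (fun p hp => freq_colRel p (mem_filter.1 hp).2.ne), sum_const,
    nsmul_eq_mul, card_pairs] at h
  have hoff : ∑ q ∈ (pairs n).offDiag, freq (fun x => ColRel q.1 x ∧ ColRel q.2 x) ≤
      256 * (n : ℝ) ^ 4 * (1 / 4 : ℝ) ^ n := by
    have hn1 : (n : ℝ) * (n - 1) ≤ (n : ℝ) ^ 2 := by
      nlinarith [(Nat.cast_nonneg n : (0:ℝ) ≤ n)]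
    calc _ ≤ (pairs n).offDiag.card • ((1 : ℝ) / 4 ^ (n - 4)) :=
          sum_le_card_nsmul _ _ _ fun q hq => by
            obtain ⟨h1, h2, h3⟩ := mem_offDiag.1 hq
            exact freq_colRel_pair h1 h2 h3
      _ ≤ ((pairs n).card : ℝ) ^ 2 * (1 / 4 ^ (n - 4)) := by
          rw [nsmul_eq_mul, offDiag_card, sq]
          gcongr
          exact_mod_cast Nat.sub_le _ _
      _ ≤ ((n : ℝ) ^ 2) ^ 2 * (256 * (1 / 4) ^ n) := by
          gcongr
          · exact_mod_cast (card_pairs n).trans_le hn1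
          · rw [one_div_pow, show (4 : ℝ) ^ n = 4 ^ (n - 4) * 4 ^ 4 by
              rw [← pow_add]; congr 1; omega]
            field_simp
            norm_num
      _ = _ := by ring
  have hunion : freq (fun x : Sym2 (Fin n) → Bool => ∃ p ∈ pairs n, ColRel p x) ≤
      freq (fun x : Sym2 (Fin n) → Bool => HasNondenseNull (symSign x)) := by
    refine freq_mono fun x hx => ?_
    obtain ⟨p, hp, hrel⟩ := hx
    have hne : p.1 ≠ p.2.1 := (mem_filter.1 hp).2.ne
    refine ⟨pairVec p, fun h => ?_, funext fun k => pairVec_null hrel k, ?_⟩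
    · have := congrFun h p.1
      simp [pairVec, hne] at this
    · have hc : Nat.card {i // pairVec p i ≠ 0} ≤ 2 := by
        rw [Nat.card_eq_fintype_card, Fintype.card_subtype]
        refine (card_le_card (t := {p.1, p.2.1}) fun i hi => ?_).trans card_le_two
        rw [Finset.mem_filter] at hi
        simp only [pairVec, Pi.sub_apply] at hi
        simp only [mem_insert, mem_singleton]
        by_contra hcon
        push Not at hcon
        exact hi.2 (by simp [hcon.1, hcon.2])
      have hc' : (Nat.card {i // pairVec p i ≠ 0} : ℝ) ≤ 2 := by exact_mod_cast hc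
      have : 16 * (n : ℝ) / Real.log n ≤ n / 2 := by
        rw [div_le_iff₀ (by linarith)]
        nlinarith [(Nat.cast_nonneg n : (0:ℝ) ≤ n)]
      have : (4 : ℝ) ≤ n := by exact_mod_cast hn
      linarith
  rw [mul_one_div] at h
  linarith

theorem nondense_asymptotic :
    Tendsto (fun n : ℕ => prob n HasNondenseNull / ((n : ℝ) ^ 2 / 2 ^ n)) atTop (𝓝 1) := by
  have hlo : Tendsto (fun n : ℕ => 1 - 1 / (n : ℝ) - 256 * ((n : ℝ) ^ 2 * (1 / 2) ^ n))
      atTop (𝓝 1) := by
    have h1 := (tendsto_one_div_atTop_nhds_zero_nat (𝕜 := ℝ)).const_sub 1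
    have h2 := (tendsto_pow_const_mul_const_pow_of_abs_lt_one 2
      (show |(1 / 2 : ℝ)| < 1 by norm_num [abs_of_pos])).const_mul 256
    simpa using h1.sub h2
  have hhi : Tendsto (fun n : ℕ => 1 + (24 / 25 : ℝ) ^ n + 2 * (1 / 2 : ℝ) ^ n)
      atTop (𝓝 1) := by
    have h1 := (tendsto_pow_atTop_nhds_zero_of_lt_one (r := (24 / 25 : ℝ)) (by norm_num)
      (by norm_num)).const_add 1
    have h2 := (tendsto_pow_atTop_nhds_zero_of_lt_one (r := (1 / 2 : ℝ)) (by norm_num)
      (by norm_num)).const_mul 2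
    simpa using h1.add h2
  refine tendsto_of_tendsto_of_tendsto_of_le_of_le' hlo hhi ?_ ?_
  · filter_upwards [nondense_lower, eventually_gt_atTop 0] with n h hn
    have hn0 : (0 : ℝ) < n := by exact_mod_cast hn
    rw [le_div_iff₀ (by positivity)]
    refine le_trans (le_of_eq ?_) h
    rw [one_div_pow, one_div_pow, show (4 : ℝ) ^ n = 2 ^ n * 2 ^ n by rw [← mul_pow]; norm_num]
    field_simp
  · filter_upwards [nondense_upper, eventually_gt_atTop 0] with n h hn
    have hn0 : (0 : ℝ) < n := by exact_mod_cast hn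
    have hn1 : (1 : ℝ) ≤ (n : ℝ) ^ 2 := by
      have : (1 : ℝ) ≤ n := by exact_mod_cast hn
      exact one_le_pow₀ this
    rw [div_le_iff₀ (by positivity)]
    refine h.trans ?_
    have e1 : (12 / 25 : ℝ) ^ n = (24 / 25 : ℝ) ^ n * (1 / 2 ^ n) := by
      rw [← one_div_pow, ← mul_pow]; norm_num
    have e2 : (1 / 4 : ℝ) ^ n = (1 / 2 : ℝ) ^ n * (1 / 2 ^ n) := by
      rw [← one_div_pow, ← mul_pow]; norm_num
    rw [e1, e2]
    calc (n : ℝ) * (n - 1) / 2 ^ n + (24 / 25 : ℝ) ^ n * (1 / 2 ^ n)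
          + 2 * ((1 / 2 : ℝ) ^ n * (1 / 2 ^ n))
        = ((n : ℝ) * (n - 1) + (24 / 25 : ℝ) ^ n + 2 * (1 / 2 : ℝ) ^ n) / 2 ^ n := by ring
      _ ≤ ((1 + (24 / 25 : ℝ) ^ n + 2 * (1 / 2 : ℝ) ^ n) * (n : ℝ) ^ 2) / 2 ^ n := by
          gcongr
          have : (0:ℝ) ≤ (24 / 25 : ℝ) ^ n + 2 * (1 / 2 : ℝ) ^ n := by positivity
          nlinarith
      _ = _ := by ring

theorem singular_split (n : ℕ) :
    prob n (fun M => M.det = 0) =
      prob n HasNondenseNull + prob n (fun M => M.det = 0 ∧ ¬ HasNondenseNull M) := by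
  simp only [prob_eq_freq]
  rw [freq_split (fun x : Sym2 (Fin n) → Bool => (symSign x).det = 0)
    (fun x => HasNondenseNull (symSign x))]
  congr 2
  funext x
  refine propext ⟨And.right, fun h => ⟨?_, h⟩⟩
  obtain ⟨v, hv, hnull, -⟩ := h
  exact Matrix.exists_mulVec_eq_zero_iff.1 ⟨v, hv, hnull⟩

theorem family_asymptotic (C : ℝ) :
    ∃ K : ℝ, ∀ ε > (0 : ℝ), ∀ᶠ n : ℕ in atTop,
      ∀ 𝒲 : Finset (Submodule ℝ (Fin n → ℝ)), (𝒲.card : ℝ) ≤ C ^ n →
        (∀ W ∈ 𝒲, (Module.finrank ℝ W : ℝ) + K * n / Real.log n ≤ n) →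
        prob n (fun M => ∃ W ∈ 𝒲, ∃ v ∈ W, v ≠ 0 ∧ M.mulVec v = 0) ≤
          (1 + ε) * ((n : ℝ) ^ 2 / 2 ^ n) := by
  set M₀ : ℝ := max |C| 1 with hM
  have hM1 : 1 ≤ M₀ := le_max_right _ _
  set a : ℝ := 3 * Real.log (16 * M₀) with ha
  have hlog1 : 1 ≤ Real.log (16 * M₀) := by
    rw [Real.le_log_iff_exp_le (by positivity)]
    linarith [Real.exp_one_lt_d9]
  refine ⟨16 + a, fun ε hε => ?_⟩
  have hsmall : ∀ᶠ n : ℕ in atTop,
      prob n HasNondenseNull ≤ (1 + ε / 2) * ((n : ℝ) ^ 2 / 2 ^ n) := by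
    filter_upwards [nondense_asymptotic.eventually (eventually_le_nhds
      (show (1 : ℝ) < 1 + ε / 2 by linarith)), eventually_gt_atTop 0] with n h hn
    have hn0 : (0 : ℝ) < n := by exact_mod_cast hn
    rwa [div_le_iff₀ (by positivity)] at h
  have htail : ∀ᶠ n : ℕ in atTop, (1 / 4 : ℝ) ^ n ≤ ε / 2 * ((n : ℝ) ^ 2 / 2 ^ n) := by
    filter_upwards [(tendsto_pow_atTop_nhds_zero_of_lt_one (r := (1 / 2 : ℝ)) (by norm_num)
      (by norm_num)).eventually (eventually_le_nhds (show (0:ℝ) < ε / 2 by linarith)),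
      eventually_gt_atTop 0] with n h hn
    have hn1 : (1 : ℝ) ≤ (n : ℝ) ^ 2 := one_le_pow₀ (by exact_mod_cast hn)
    calc (1 / 4 : ℝ) ^ n = (1 / 2 : ℝ) ^ n * (1 / 2) ^ n := by rw [← mul_pow]; norm_num
      _ ≤ ε / 2 * (1 / 2) ^ n := by gcongr
      _ ≤ _ := by
          rw [one_div_pow]
          gcongr
  filter_upwards [hsmall, htail, eventually_Phi] with n hs htl hphi 𝒲 hcard hdim
  rw [prob_eq_freq] at hs ⊢
  set g := ⌈a * n / Real.log n⌉₊
  refine (freq_mono (q := fun x : Sym2 (Fin n) → Bool => HasNondenseNull (symSign x) ∨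
    ∃ W ∈ 𝒲, ∃ v ∈ W, (∀ i, row x i v = 0) ∧
      Module.finrank ℝ W + g ≤ Nat.card {i // v i ≠ 0}) ?_).trans ((freq_or _ _).trans ?_)
  · rintro x ⟨W, hW, v, hv, hv0, hnull⟩
    by_cases h : HasNondenseNull (symSign x)
    · exact Or.inl h
    refine Or.inr ⟨W, hW, v, hv, fun i => by rw [← mulVec_eq_row, hnull]; rfl, ?_⟩
    have h' : (n : ℝ) < (Nat.card {i // v i ≠ 0} : ℝ) + 16 * n / Real.log n :=
      not_le.1 fun hle => h ⟨v, hv0, hnull, hle⟩
    have hd := hdim W hW
    have e : (16 + a) * (n : ℝ) / Real.log n = 16 * n / Real.log n + a * n / Real.log n := by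
      ring
    set d := Module.finrank ℝ W
    set s := Nat.card {i // v i ≠ 0}
    have hlt : (d : ℝ) + a * n / Real.log n < s := by linarith
    have hds : d ≤ s := by
      have : 0 ≤ a * n / Real.log n :=
        div_nonneg (mul_nonneg (by linarith) (Nat.cast_nonneg n)) (Real.log_natCast_nonneg n)
      exact_mod_cast (show (d : ℝ) ≤ s by linarith)
    have : g ≤ s - d := Nat.ceil_le.2 (by rw [Nat.cast_sub hds]; linarith)
    omega
  · refine le_trans (add_le_add hs ?_) (le_of_eq (by ring :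
      (1 + ε / 2) * ((n : ℝ) ^ 2 / 2 ^ n) + ε / 2 * ((n : ℝ) ^ 2 / 2 ^ n) = _))
    refine le_trans ?_ htl
    have hb : ∀ W ∈ 𝒲, freq (fun x : Sym2 (Fin n) → Bool => ∃ v ∈ W, (∀ i, row x i v = 0) ∧
        Module.finrank ℝ W + g ≤ Nat.card {i // v i ≠ 0}) ≤
        4 ^ n * Real.exp (-(3 * a / 8) * n) := fun W _ =>
      family_cover W _ g le_rfl _ (Real.exp_pos _).le fun m hm =>
        hphi a m (by linarith) ((Nat.le_ceil _).trans (by exact_mod_cast hm))
    refine (freq_union _ _).trans ((sum_le_card_nsmul _ _ _ hb).trans ?_)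
    rw [nsmul_eq_mul]
    calc (𝒲.card : ℝ) * (4 ^ n * Real.exp (-(3 * a / 8) * n))
        ≤ M₀ ^ n * (4 ^ n * Real.exp (-(Real.log (16 * M₀)) * n)) := by
          gcongr
          · calc (𝒲.card : ℝ) ≤ C ^ n := hcard
              _ ≤ |C ^ n| := le_abs_self _
              _ ≤ M₀ ^ n := by
                rw [abs_pow]
                exact pow_le_pow_left₀ (abs_nonneg C) (le_max_left _ _) n
          · linarith
      _ = (1 / 4) ^ n := by
          rw [mul_comm _ (n : ℝ), Real.exp_nat_mul, Real.exp_neg,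
            Real.exp_log (by positivity), ← mul_pow, ← mul_pow]
          congr 1
          field_simp
          ring

end

end Vale.Agent.P160

namespace Vale.Agent.P160

open Filter Topology

noncomputable section

theorem rate_iff :
    Tendsto (fun n : ℕ => prob n (fun M => M.det = 0) ^ (1 / (n : ℝ))) atTop (𝓝 (1 / 2)) ↔
      ∀ η > (1 / 2 : ℝ), ∀ᶠ n : ℕ in atTop,
        prob n (fun M => M.det = 0 ∧ ¬ HasNondenseNull M) ≤ η ^ n := by
  have hnn : ∀ (n : ℕ) (E : Matrix (Fin n) (Fin n) ℝ → Prop), 0 ≤ prob n E := fun n E => by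
    rw [prob_eq_freq]; exact freq_nonneg _
  have hroot : ∀ {n : ℕ} {c : ℝ}, 0 < n → 0 ≤ c → (c ^ n) ^ (1 / (n : ℝ)) = c := by
    intro n c hn hc
    rw [one_div]
    exact Real.pow_rpow_inv_natCast hc hn.ne'
  have hpowr : ∀ {n : ℕ} {c : ℝ}, 0 < n → 0 ≤ c → (c ^ (1 / (n : ℝ))) ^ n = c := by
    intro n c hn hc
    rw [one_div]
    exact Real.rpow_inv_natCast_pow hc hn.ne'
  constructor
  · intro h η hη
    filter_upwards [h.eventually (eventually_le_nhds hη), eventually_gt_atTop 0] with n hn hn0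
    calc prob n (fun M => M.det = 0 ∧ ¬ HasNondenseNull M) ≤ prob n (fun M => M.det = 0) := by
          rw [singular_split]; linarith [hnn n HasNondenseNull]
      _ = (prob n (fun M => M.det = 0) ^ (1 / (n : ℝ))) ^ n := (hpowr hn0 (hnn _ _)).symm
      _ ≤ η ^ n := pow_le_pow_left₀ (Real.rpow_nonneg (hnn _ _) _) hn n
  · intro h
    rw [tendsto_order]
    refine ⟨fun b hb => ?_, fun b hb => ?_⟩
    · filter_upwards [nondense_asymptotic.eventually (eventually_ge_nhds
        (show (1 / 2 : ℝ) < 1 by norm_num)), eventually_ge_atTop 2] with n hn hn2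
      have hn0 : (0 : ℝ) < n := by positivity
      rw [le_div_iff₀ (by positivity)] at hn
      have hq : (1 / 2 : ℝ) ^ n ≤ prob n (fun M => M.det = 0) := by
        rw [singular_split]
        have h4 : (4 : ℝ) ≤ (n : ℝ) ^ 2 := by
          have : (2 : ℝ) ≤ n := by exact_mod_cast hn2
          nlinarith
        have : (1 / 2 : ℝ) ^ n ≤ 1 / 2 * ((n : ℝ) ^ 2 / 2 ^ n) := by
          rw [one_div_pow, ← mul_div_assoc]
          gcongr
          linarith
        linarith [hnn n (fun M => M.det = 0 ∧ ¬ HasNondenseNull M)]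
      calc b < 1 / 2 := hb
        _ = ((1 / 2 : ℝ) ^ n) ^ (1 / (n : ℝ)) := (hroot (by omega) (by norm_num)).symm
        _ ≤ _ := Real.rpow_le_rpow (by positivity) hq (by positivity)
    · obtain ⟨η, hη, hηb⟩ := exists_between hb
      obtain ⟨η', hη', hη'b⟩ := exists_between hη
      have hη'0 : 0 < η' := by linarith
      have hgrow := (tendsto_pow_const_mul_const_pow_of_abs_lt_one 2
        (show |(1 / 2 : ℝ) / η'| < 1 by
          rw [abs_of_pos (by positivity), div_lt_one hη'0]; exact hη')).eventually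
        (eventually_le_nhds (show (0 : ℝ) < 1 / 2 by norm_num))
      have htwo := (tendsto_pow_atTop_nhds_zero_of_lt_one (r := η' / η) (by positivity)
        (by rw [div_lt_one (by linarith)]; exact hη'b)).eventually
        (eventually_le_nhds (show (0 : ℝ) < 1 / 2 by norm_num))
      filter_upwards [h η' hη', nondense_asymptotic.eventually (eventually_le_nhds
        (show (1 : ℝ) < 2 by norm_num)), hgrow, htwo, eventually_gt_atTop 0] with n hD hS hg ht hn
      have hn0 : (0 : ℝ) < n := by exact_mod_cast hn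
      rw [div_le_iff₀ (by positivity)] at hS
      have hη'n : (0 : ℝ) < η' ^ n := by positivity
      have hS' : prob n HasNondenseNull ≤ η' ^ n := by
        refine hS.trans ?_
        rw [div_pow, ← mul_div_assoc, div_le_iff₀ hη'n, one_div_pow] at hg
        calc 2 * ((n : ℝ) ^ 2 / 2 ^ n) = 2 * ((n : ℝ) ^ 2 * (1 / 2 ^ n)) := by ring
          _ ≤ 2 * (1 / 2 * η' ^ n) := by gcongr
          _ = η' ^ n := by ring
      have hq : prob n (fun M => M.det = 0) ≤ η ^ n := by
        rw [singular_split]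
        rw [div_pow, div_le_iff₀ (by positivity)] at ht
        linarith
      calc prob n (fun M => M.det = 0) ^ (1 / (n : ℝ)) ≤ (η ^ n) ^ (1 / (n : ℝ)) :=
            Real.rpow_le_rpow (hnn _ _) hq (by positivity)
        _ = η := hroot hn (by linarith)
        _ < b := hηb

end

end Vale.Agent.P160
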