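import Vale.Agent.P160.Asymptotic

/-!
Null vectors in families of subspaces whose number may be as large as a power of `n ^ codimension`.
-/

namespace Vale.Agent.P160

open Filter Topology Finset

noncomputable section

/-- Families of at most `n ^ (θ * k)` subspaces of codimension `k ≥ K n / log n`, `θ < 1/2`. -/
theorem family_asymptotic_large {θ : ℝ} (hθ : θ < 1 / 2) :
    ∃ K : ℝ, ∀ ε > (0 : ℝ), ∀ᶠ n : ℕ in atTop, ∀ k : ℕ, K * n / Real.log n ≤ k →
      ∀ 𝒲 : Finset (Submodule ℝ (Fin n → ℝ)), (𝒲.card : ℝ) ≤ (n : ℝ) ^ (θ * k) →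
        (∀ W ∈ 𝒲, Module.finrank ℝ W + k ≤ n) →
        prob n (fun M => ∃ W ∈ 𝒲, ∃ v ∈ W, v ≠ 0 ∧ M.mulVec v = 0) ≤
          (1 + ε) * ((n : ℝ) ^ 2 / 2 ^ n) := by
  set θ₀ := max θ 0 with hθ₀
  set δ := 1 / 2 - θ₀ with hδdef
  have hδ : 0 < δ := sub_pos.2 (max_lt hθ (by norm_num))
  have hδ2 : δ ≤ 1 / 2 := by
    have : 0 ≤ θ₀ := le_max_right _ _
    linarith
  refine ⟨64 / δ, fun ε hε => ?_⟩
  have hsmall : ∀ᶠ n : ℕ in atTop,
      prob n HasNondenseNull ≤ (1 + ε / 2) * ((n : ℝ) ^ 2 / 2 ^ n) := by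
    filter_upwards [nondense_asymptotic.eventually (eventually_le_nhds
      (show (1 : ℝ) < 1 + ε / 2 by linarith)), eventually_gt_atTop 0] with n h hn
    have hn0 : (0 : ℝ) < n := by exact_mod_cast hn
    rwa [div_le_iff₀ (by positivity)] at h
  have htail : ∀ᶠ n : ℕ in atTop, (1 / 4 : ℝ) ^ n ≤ ε / 2 * ((n : ℝ) ^ 2 / 2 ^ n) := by
    filter_upwards [(tendsto_pow_atTop_nhds_zero_of_lt_one (r := (1 / 2 : ℝ)) (by norm_num)
      (by norm_num)).eventually (eventually_le_nhds (show (0:ℝ) < ε / 2 by linarith)),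
      eventually_gt_atTop 0] with n h hn
    have hn1 : (1 : ℝ) ≤ (n : ℝ) ^ 2 := one_le_pow₀ (by exact_mod_cast hn)
    calc (1 / 4 : ℝ) ^ n = (1 / 2 : ℝ) ^ n * (1 / 2) ^ n := by rw [← mul_pow]; norm_num
      _ ≤ ε / 2 * (1 / 2) ^ n := by gcongr
      _ ≤ _ := by
          rw [one_div_pow]
          gcongr
  have hlog : ∀ᶠ L : ℝ in atTop, Real.log L + 1 ≤ δ / 4 * L := by
    have := Real.isLittleO_log_id_atTop.bound (show (0 : ℝ) < δ / 8 by positivity)
    filter_upwards [this, eventually_ge_atTop (8 / δ), eventually_ge_atTop 1] with L hL hL8 hL1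
    rw [Real.norm_eq_abs, Real.norm_eq_abs, id, abs_of_nonneg (show (0:ℝ) ≤ L by linarith)] at hL
    rw [div_le_iff₀ hδ] at hL8
    linarith [le_abs_self (Real.log L)]
  filter_upwards [hsmall, htail,
    (Real.tendsto_log_atTop.comp tendsto_natCast_atTop_atTop).eventually hlog,
    eventually_log_large 1, eventually_gt_atTop 0] with n hs htl hL1 hL2 hn k hk 𝒲 hcard hdim
  simp only [Function.comp] at hL1
  rw [prob_eq_freq] at hs ⊢
  set L := Real.log n
  have hn0 : (0 : ℝ) < n := by exact_mod_cast hn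
  have hL0 : (0 : ℝ) < L := by linarith
  set g := ⌈(k : ℝ) - 16 * n / L⌉₊
  have hKk : 64 / δ * n ≤ k * L := by rwa [div_le_iff₀ hL0] at hk
  have h64 : 64 * (n : ℝ) ≤ δ * (k * L) := by
    have := mul_le_mul_of_nonneg_left hKk hδ.le
    rwa [← mul_assoc, mul_div_cancel₀ _ hδ.ne'] at this
  refine (freq_mono (q := fun x : Sym2 (Fin n) → Bool => HasNondenseNull (symSign x) ∨
    ∃ W ∈ 𝒲, ∃ v ∈ W, (∀ i, row x i v = 0) ∧
      Module.finrank ℝ W + g ≤ Nat.card {i // v i ≠ 0}) ?_).trans ((freq_or _ _).trans ?_)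
  · rintro x ⟨W, hW, v, hv, hv0, hnull⟩
    by_cases h : HasNondenseNull (symSign x)
    · exact Or.inl h
    refine Or.inr ⟨W, hW, v, hv, fun i => by rw [← mulVec_eq_row, hnull]; rfl, ?_⟩
    have h' : (n : ℝ) < (Nat.card {i // v i ≠ 0} : ℝ) + 16 * n / L :=
      not_le.1 fun hle => h ⟨v, hv0, hnull, hle⟩
    have hd : (Module.finrank ℝ W : ℝ) + k ≤ n := by exact_mod_cast hdim W hW
    set d := Module.finrank ℝ W
    set s := Nat.card {i // v i ≠ 0}
    have hq : 16 * (n : ℝ) / L ≤ k := by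
      rw [div_le_iff₀ hL0]
      nlinarith [mul_nonneg (Nat.cast_nonneg k : (0:ℝ) ≤ k) hL0.le]
    have hds : d ≤ s := by
      exact_mod_cast (show (d : ℝ) ≤ s by linarith)
    have : g ≤ s - d := Nat.ceil_le.2 (by rw [Nat.cast_sub hds]; linarith)
    omega
  · refine le_trans (add_le_add hs ?_) (le_of_eq (by ring :
      (1 + ε / 2) * ((n : ℝ) ^ 2 / 2 ^ n) + ε / 2 * ((n : ℝ) ^ 2 / 2 ^ n) = _))
    refine le_trans ?_ htl
    set b := Real.exp (-(θ₀ + 3 * δ / 4) * (k * L))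
    have hphi : ∀ m : ℕ, g ≤ m → Phi m ≤ b := by
      intro m hm
      have hm' : (k : ℝ) - 16 * n / L ≤ m :=
        (Nat.le_ceil _).trans (Nat.cast_le.2 hm)
      have hmL : (1 - δ / 4) * (k * L) ≤ m * L := by
        have := mul_le_mul_of_nonneg_right hm' hL0.le
        rw [sub_mul, div_mul_cancel₀ _ hL0.ne'] at this
        linarith
      have hnm : (n : ℝ) / L ≤ m := by
        rw [div_le_iff₀ hL0]
        nlinarith [mul_nonneg (Nat.cast_nonneg k : (0:ℝ) ≤ k) hL0.le]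
      have hm0 : (0 : ℝ) < m := lt_of_lt_of_le (div_pos hn0 hL0) hnm
      have hlogm : (1 - δ / 4) * L ≤ Real.log m - 1 := by
        have h := Real.log_le_log (div_pos hn0 hL0) hnm
        rw [Real.log_div hn0.ne' hL0.ne'] at h
        linarith
      refine (Phi_le_exp (by exact_mod_cast hm0)).trans (Real.exp_le_exp.2 ?_)
      have h1 := mul_le_mul_of_nonneg_left hlogm hm0.le
      have h2 := mul_le_mul_of_nonneg_left hmL (show (0:ℝ) ≤ 1 - δ / 4 by linarith)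
      nlinarith [mul_nonneg (Nat.cast_nonneg k : (0:ℝ) ≤ k) hL0.le]
    have hb : ∀ W ∈ 𝒲, freq (fun x : Sym2 (Fin n) → Bool => ∃ v ∈ W, (∀ i, row x i v = 0) ∧
        Module.finrank ℝ W + g ≤ Nat.card {i // v i ≠ 0}) ≤ 4 ^ n * b := fun W _ =>
      family_cover W _ g le_rfl _ (Real.exp_pos _).le hphi
    refine (freq_union _ _).trans ((sum_le_card_nsmul _ _ _ hb).trans ?_)
    rw [nsmul_eq_mul]
    have hc : (𝒲.card : ℝ) ≤ Real.exp (θ₀ * (k * L)) := by
      refine hcard.trans ?_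
      rw [Real.rpow_def_of_pos hn0]
      refine Real.exp_le_exp.2 ?_
      nlinarith [mul_le_mul_of_nonneg_right (le_max_left θ 0)
        (mul_nonneg (Nat.cast_nonneg k : (0:ℝ) ≤ k) hL0.le)]
    calc (𝒲.card : ℝ) * (4 ^ n * b) ≤ Real.exp (θ₀ * (k * L)) * (4 ^ n * b) :=
          mul_le_mul_of_nonneg_right hc (by positivity)
      _ = 4 ^ n * Real.exp (-(3 * δ / 4) * (k * L)) := by
          rw [mul_left_comm, ← Real.exp_add]
          congr 2
          ring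
      _ ≤ 4 ^ n * Real.exp ((n : ℝ) * -48) :=
          mul_le_mul_of_nonneg_left (Real.exp_le_exp.2 (by linarith)) (by positivity)
      _ ≤ _ := by
          rw [Real.exp_nat_mul, ← mul_pow]
          refine pow_le_pow_left₀ (by positivity) ?_ n
          have h48 : Real.exp (-48) ≤ Real.exp (-3) := Real.exp_le_exp.2 (by norm_num)
          linarith [exp_neg_three]

/-- The lines of the integer vectors in a box cover the null vectors in the box. -/
theorem prob_box_lines_le {n : ℕ} (h : ℤ) (t : ℝ) (ht : ∀ a : ℤ, |(a : ℝ)| ≤ t → a ∈ Finset.Icc (-h) h)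
    (𝒲 : Finset (Submodule ℝ (Fin n → ℝ)))
    (h𝒲 : ∀ z ∈ Fintype.piFinset (fun _ : Fin n => Finset.Icc (-h) h),
      Submodule.span ℝ {(fun i => (z i : ℝ))} ∈ 𝒲) :
    prob n (fun M => ∃ z : Fin n → ℤ, z ≠ 0 ∧ (∀ i, |(z i : ℝ)| ≤ t) ∧
        M.mulVec (fun i => (z i : ℝ)) = 0) ≤
      prob n (fun M => ∃ W ∈ 𝒲, ∃ v ∈ W, v ≠ 0 ∧ M.mulVec v = 0) := by
  rw [prob_eq_freq, prob_eq_freq]
  refine freq_mono fun x hx => ?_
  obtain ⟨z, hz0, hzb, hz⟩ := hx
  refine ⟨_, h𝒲 z (Fintype.mem_piFinset.2 fun i => ht _ (hzb i)), fun i => (z i : ℝ),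
    Submodule.mem_span_singleton_self _, fun h0 => hz0 (funext fun i => ?_), hz⟩
  have := congrFun h0 i
  simpa using this

theorem box_family_le {n : ℕ} (h : ℤ) (t : ℝ) (ht : ∀ a : ℤ, |(a : ℝ)| ≤ t → a ∈ Finset.Icc (-h) h)
    (k : ℕ) (hk : 1 + k ≤ n) (B : ℝ) {c : ℝ}
    (hn : ∀ 𝒲 : Finset (Submodule ℝ (Fin n → ℝ)), (𝒲.card : ℝ) ≤ c →
      (∀ W ∈ 𝒲, Module.finrank ℝ W + k ≤ n) →
      prob n (fun M => ∃ W ∈ 𝒲, ∃ v ∈ W, v ≠ 0 ∧ M.mulVec v = 0) ≤ B)
    (inst : DecidableEq (Submodule ℝ (Fin n → ℝ)))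
    (hc : (((Fintype.piFinset fun _ : Fin n => Finset.Icc (-h) h).image
      fun z => Submodule.span ℝ {(fun i => (z i : ℝ))}).card : ℝ) ≤ c) :
    prob n (fun M => ∃ z : Fin n → ℤ, z ≠ 0 ∧ (∀ i, |(z i : ℝ)| ≤ t) ∧
        M.mulVec (fun i => (z i : ℝ)) = 0) ≤ B := by
  revert hc
  generalize hS : Fintype.piFinset (fun _ : Fin n => Finset.Icc (-h) h) = S
  generalize hf : (fun z : Fin n → ℤ => Submodule.span ℝ {(fun i => (z i : ℝ))}) = f
  intro hc
  have hmem : ∀ z ∈ Fintype.piFinset (fun _ : Fin n => Finset.Icc (-h) h),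
      Submodule.span ℝ {(fun i => (z i : ℝ))} ∈ S.image f := by
    intro z hz
    rw [hS] at hz
    subst hf
    exact mem_image.2 ⟨z, hz, rfl⟩
  refine le_trans (prob_box_lines_le h t ht (S.image f) hmem) (hn (S.image f) hc ?_)
  intro W hW
  obtain ⟨z, -, hz⟩ := mem_image.1 hW
  subst hf
  have h1 : Module.finrank ℝ (Submodule.span ℝ {(fun i => (z i : ℝ))}) ≤ 1 :=
    (finrank_span_le_card _).trans (by simp)
  subst hz; simp only at *
  omega

/-- Null vectors of integer height at most `n ^ θ`, `θ < 1/2`. -/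
theorem bounded_height_asymptotic {θ : ℝ} (hθ : θ < 1 / 2) (ε : ℝ) (hε : 0 < ε) :
    ∀ᶠ n : ℕ in atTop,
      prob n (fun M => ∃ z : Fin n → ℤ, z ≠ 0 ∧ (∀ i, |(z i : ℝ)| ≤ (n : ℝ) ^ θ) ∧
        M.mulVec (fun i => (z i : ℝ)) = 0) ≤ (1 + ε) * ((n : ℝ) ^ 2 / 2 ^ n) := by
  classical
  set θ₀ := max θ 0
  have hθ₀ : θ₀ < 1 / 2 := max_lt hθ (by norm_num)
  obtain ⟨K, hK⟩ := family_asymptotic_large (θ := (θ₀ + 1 / 2) / 2) (by linarith)
  set c := (1 / 2 - θ₀) / 2 with hc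
  have hc0 : 0 < c := by linarith
  filter_upwards [hK ε hε, eventually_log_large (2 * |K|), eventually_log_large (2 * Real.log 3 / c),
    eventually_log_large 1, eventually_ge_atTop 2,
    tendsto_natCast_atTop_atTop.eventually (eventually_ge_atTop (1 / c))] with n hn hLK hL3 hL1 hn2 hnc
  set L := Real.log n
  have hn0 : (2 : ℝ) ≤ n := by exact_mod_cast hn2
  set h : ℤ := ⌊(n : ℝ) ^ θ⌋
  set Z := Fintype.piFinset fun _ : Fin n => Finset.Icc (-h) h
  have hk : K * n / L ≤ ((n - 1 : ℕ) : ℝ) := by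
    rw [Nat.cast_sub (by omega), div_le_iff₀ (by linarith)]
    push_cast
    have h1 := mul_le_mul_of_nonneg_right (le_abs_self K) (show (0:ℝ) ≤ n by linarith)
    have h2 := mul_le_mul_of_nonneg_left hLK (show (0:ℝ) ≤ n by linarith)
    have h3 := mul_le_mul_of_nonneg_right hn0 (show (0:ℝ) ≤ L by linarith)
    linarith
  have h0 : (0 : ℤ) ≤ h := Int.floor_nonneg.2 (Real.rpow_nonneg (by linarith) _)
  have hcard : ((Z.image fun z => Submodule.span ℝ {(fun i => (z i : ℝ))}).card : ℝ) ≤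
      (n : ℝ) ^ ((θ₀ + 1 / 2) / 2 * ((n - 1 : ℕ) : ℝ)) := by
    refine le_trans (Nat.cast_le.2 card_image_le) ?_
    rw [Fintype.card_piFinset, prod_const, card_univ, Fintype.card_fin, Int.card_Icc, Nat.cast_pow,
      show ((h + 1 - -h).toNat : ℝ) = 2 * (h : ℝ) + 1 by
        rw [← Int.cast_natCast, Int.toNat_of_nonneg (by linarith)]; push_cast; ring]
    have hb : 2 * (h : ℝ) + 1 ≤ 3 * (n : ℝ) ^ θ₀ := by
      have h1 : (h : ℝ) ≤ (n : ℝ) ^ θ := Int.floor_le _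
      have h2 : (n : ℝ) ^ θ ≤ (n : ℝ) ^ θ₀ :=
        Real.rpow_le_rpow_of_exponent_le (by linarith) (le_max_left _ _)
      have h3 : 1 ≤ (n : ℝ) ^ θ₀ := Real.one_le_rpow (by linarith) (le_max_right _ _)
      linarith
    refine (pow_le_pow_left₀ (by positivity) hb n).trans ?_
    rw [Nat.cast_sub (by omega), Real.rpow_def_of_pos (by linarith),
      Real.rpow_def_of_pos (by linarith),
      ← Real.exp_log (show (0:ℝ) < 3 by norm_num), ← Real.exp_add, ← Real.exp_nat_mul]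
    refine Real.exp_le_exp.2 ?_
    push_cast
    rw [div_le_iff₀ hc0] at hL3 hnc
    have h1 := mul_le_mul_of_nonneg_left hL3 (Nat.cast_nonneg n : (0:ℝ) ≤ n)
    have h2 := mul_le_mul_of_nonneg_left hnc (show (0:ℝ) ≤ L by linarith)
    have h3 := mul_le_mul_of_nonneg_right (show (θ₀ + 1 / 2) / 2 ≤ 1 / 2 by linarith)
      (show (0:ℝ) ≤ L by linarith)
    simp only [hc] at h1 h2
    change (n : ℝ) * _ ≤ _
    linarith
  have hbox : ∀ a : ℤ, |(a : ℝ)| ≤ (n : ℝ) ^ θ → a ∈ Finset.Icc (-h) h := fun a ha => by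
    obtain ⟨h1, h2⟩ := abs_le.1 ha
    exact Finset.mem_Icc.2 ⟨neg_le.1 (Int.le_floor.2 (by push_cast; linarith)), Int.le_floor.2 h2⟩
  exact box_family_le h ((n : ℝ) ^ θ) hbox (n - 1) (by omega) _ (fun 𝒲 hc hd => hn (n - 1) hk 𝒲 hc hd)
    _ hcard

end

end Vale.Agent.P160
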